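import Vale.Agent.P004N.DefsL
import Vale.Agent.P004.L3

/-!
# P004N, module T8: squarefree parts, discriminants, Kronecker symbols
-/

open scoped NumberTheorySymbols

namespace P004N
namespace T8

open Vale.Agent.P004H.H871 (kr Fd kr_odd kr_one_mod kr_zero kr_pm kr_mul kr_one)

/-! ### the squarefree part of an integer -/

/-- the squarefree part: `n = sqp n * s²` -/
lemma exists_sqp (n : ℤ) (hn : n ≠ 0) : ∃ m s : ℤ, Squarefree m ∧ n = m * s ^ 2 ∧ s ≠ 0 := by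
  obtain ⟨a, b, hab, ha⟩ := Nat.sq_mul_squarefree n.natAbs
  have hn' : n.natAbs ≠ 0 := Int.natAbs_ne_zero.2 hn
  have hb : b ≠ 0 := by
    rintro rfl
    rw [zero_pow (by norm_num), zero_mul] at hab
    exact hn' hab.symm
  refine ⟨n.sign * a, b, ?_, ?_, by exact_mod_cast hb⟩
  · rw [← Int.squarefree_natAbs, Int.natAbs_mul, Int.natAbs_sign_of_ne_zero hn, one_mul,
      Int.natAbs_natCast]
    exact ha
  · conv_lhs => rw [← Int.sign_mul_natAbs n, ← hab]
    push_cast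
    ring

/-- the squarefree part of `n` (`1` for `n = 0`) -/
noncomputable def sqp (n : ℤ) : ℤ := if h : n ≠ 0 then (exists_sqp n h).choose else 1

lemma sqp_spec {n : ℤ} (hn : n ≠ 0) : Squarefree (sqp n) ∧ ∃ s : ℤ, n = sqp n * s ^ 2 ∧ s ≠ 0 := by
  unfold sqp
  rw [dif_pos hn]
  obtain ⟨s, h1, h2, h3⟩ := (exists_sqp n hn).choose_spec
  exact ⟨h1, s, h2, h3⟩

/-- uniqueness of the squarefree part -/
lemma sqf_unique {m m' s s' : ℤ} (hm : Squarefree m) (hm' : Squarefree m') (hs : s ≠ 0)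
    (hs' : s' ≠ 0) (h : m * s ^ 2 = m' * s' ^ 2) : m = m' := by
  have key : ∀ {m m' s s' : ℤ}, Squarefree m → s ≠ 0 → s' ≠ 0 → m * s ^ 2 = m' * s' ^ 2 →
      m ∣ m' := by
    intro m m' s s' hm hs hs' h
    obtain ⟨g, t, t', hg, hc, h1, h2⟩ : ∃ g t t' : ℤ, g ≠ 0 ∧ IsCoprime t t' ∧ s = g * t ∧
        s' = g * t' := by
      have hg : 0 < Int.gcd s s' := Int.gcd_pos_of_ne_zero_left _ hs
      refine ⟨Int.gcd s s', s / Int.gcd s s', s' / Int.gcd s s', by positivity, ?_, ?_, ?_⟩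
      · rw [Int.isCoprime_iff_gcd_eq_one]
        exact Int.gcd_div_gcd_div_gcd hg
      · rw [Int.mul_ediv_cancel' (Int.gcd_dvd_left s s')]
      · rw [Int.mul_ediv_cancel' (Int.gcd_dvd_right s s')]
    rw [h1, h2] at h
    have h3 : m * t ^ 2 = m' * t' ^ 2 := by
      apply mul_left_cancel₀ (pow_ne_zero 2 hg)
      linear_combination h
    have h4 : t' ^ 2 ∣ m := by
      have h5 : t' ^ 2 ∣ m * t ^ 2 := ⟨m', by rw [h3]; ring⟩
      exact (hc.symm.pow (m := 2) (n := 2)).dvd_of_dvd_mul_right h5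
    have h6 : IsUnit t' := hm t' (by rwa [← pow_two])
    have h7 : t' ^ 2 = 1 := by
      rcases Int.isUnit_iff.1 h6 with h | h <;> rw [h] <;> norm_num
    rw [h7, mul_one] at h3
    exact ⟨t ^ 2, h3.symm⟩
  have h1 := key hm hs hs' h
  have h2 := key hm' hs' hs h.symm
  have h3 := Int.natAbs_eq_of_dvd_dvd h1 h2
  have hs2 : 0 < s ^ 2 := by positivity
  have hs2' : 0 < s' ^ 2 := by positivity
  rcases Int.natAbs_eq_natAbs_iff.1 h3 with h4 | h4
  · exact h4
  · exfalso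
    rw [h4] at h
    have hm0 : m' ≠ 0 := hm'.ne_zero
    have h5 : m' * (s ^ 2 + s' ^ 2) = 0 := by linear_combination -h
    rcases mul_eq_zero.1 h5 with h6 | h6
    · exact hm0 h6
    · omega

lemma sqp_eq {m s : ℤ} (hm : Squarefree m) (hs : s ≠ 0) : sqp (m * s ^ 2) = m := by
  have hn : m * s ^ 2 ≠ 0 := mul_ne_zero hm.ne_zero (pow_ne_zero 2 hs)
  obtain ⟨h1, t, h2, h3⟩ := sqp_spec hn
  exact (sqf_unique hm h1 hs h3 h2).symm

lemma sqp_mul_sq {n u : ℤ} (hn : n ≠ 0) (hu : u ≠ 0) : sqp (n * u ^ 2) = sqp n := by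
  obtain ⟨h1, s, h2, h3⟩ := sqp_spec hn
  have e1 : n * u ^ 2 = sqp n * (s * u) ^ 2 := by
    linear_combination u ^ 2 * h2
  rw [e1]
  exact sqp_eq h1 (mul_ne_zero h3 hu)

/-- `sqp` only depends on the class modulo squares -/
lemma sqp_congr {n n' u v : ℤ} (hn : n ≠ 0) (hn' : n' ≠ 0) (hu : u ≠ 0) (hv : v ≠ 0)
    (h : n * u ^ 2 = n' * v ^ 2) : sqp n = sqp n' := by
  rw [← sqp_mul_sq hn hu, h, sqp_mul_sq hn' hv]

lemma sqp_self {m : ℤ} (hm : Squarefree m) : sqp m = m := by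
  have := sqp_eq hm one_ne_zero
  rwa [one_pow, mul_one] at this

/-- if `s² ∣ x m` with `m` squarefree then `s ∣ x` -/
lemma dvd_of_sq_dvd {s x m : ℤ} (hs : s ≠ 0) (hm : Squarefree m) (h : s ^ 2 ∣ x * m) : s ∣ x := by
  obtain ⟨g, s', m', hg, hc, h1, h2⟩ : ∃ g s' m' : ℤ, g ≠ 0 ∧ IsCoprime s' m' ∧ s = g * s' ∧
      m = g * m' := by
    have hg : 0 < Int.gcd s m := Int.gcd_pos_of_ne_zero_left _ hs
    refine ⟨Int.gcd s m, s / Int.gcd s m, m / Int.gcd s m, by positivity, ?_, ?_, ?_⟩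
    · rw [Int.isCoprime_iff_gcd_eq_one]
      exact Int.gcd_div_gcd_div_gcd hg
    · rw [Int.mul_ediv_cancel' (Int.gcd_dvd_left s m)]
    · rw [Int.mul_ediv_cancel' (Int.gcd_dvd_right s m)]
  have hgm : IsCoprime g m' := by
    have h3 : IsRelPrime g m' := by
      rw [h2] at hm
      intro e he1 he2
      exact hm e (mul_dvd_mul he1 he2)
    exact h3.isCoprime
  obtain ⟨t, ht⟩ := h
  have h4 : x * m' = g * (s' ^ 2 * t) := by
    apply mul_left_cancel₀ hg
    rw [h1, h2] at ht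
    linear_combination ht
  obtain ⟨y, hy⟩ : g ∣ x := hgm.dvd_of_dvd_mul_right ⟨_, h4⟩
  have h5 : y * m' = s' ^ 2 * t := by
    apply mul_left_cancel₀ hg
    linear_combination h4 - m' * hy
  have h6 : s' ∣ y := by
    exact hc.dvd_of_dvd_mul_right ⟨s' * t, by rw [h5]; ring⟩
  rw [h1, hy]
  exact mul_dvd_mul_left g h6

/-! ### discriminants -/

/-- the discriminant of `ℚ(√m)`, `m` squarefree -/
def Dm (m : ℤ) : ℤ := if m % 4 = 1 then m else 4 * m

theorem fd_Dm {m : ℤ} (hm : Squarefree m) : Fd (Dm m) := by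
  unfold Dm
  split_ifs with h
  · exact Or.inl ⟨h, hm⟩
  · have h4 : ¬ (4 : ℤ) ∣ m := by
      intro h4
      have h5 := hm 2 (by norm_num; exact h4)
      rw [Int.isUnit_iff] at h5
      omega
    exact Or.inr ⟨m, rfl, by omega, hm⟩

theorem isFund_Dm {m : ℤ} (hm : Squarefree m) (h1 : m ≠ 1) : P004.IsFund (Dm m) := by
  have h := fd_Dm hm
  refine ⟨?_, h⟩
  unfold Dm
  split_ifs <;> omega

theorem Dm_inj {m m' : ℤ} (hm : Squarefree m) (hm' : Squarefree m') (h : Dm m = Dm m') :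
    m = m' := by
  unfold Dm at h
  split_ifs at h <;> omega

theorem abs_Dm (m : ℤ) : |(m : ℝ)| ≤ |(Dm m : ℝ)| ∧ |(Dm m : ℝ)| ≤ 4 * |(m : ℝ)| := by
  have h := abs_nonneg (m : ℝ)
  unfold Dm
  split_ifs
  · constructor <;> linarith
  · push_cast
    rw [abs_mul, abs_of_pos (by norm_num : (0 : ℝ) < 4)]
    constructor <;> linarith

theorem jacobi_Dm (m : ℤ) {n : ℕ} (hn : Odd n) : jacobiSym (Dm m) n = jacobiSym m n := by
  unfold Dm
  split_ifs
  · rfl
  · rw [jacobiSym.mul_left]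
    have h2 : Int.gcd (2 : ℕ) n = 1 := by
      rw [Int.gcd_natCast_natCast, Nat.coprime_two_left.2 hn]
    have h4 : jacobiSym 4 n = 1 := by
      rw [(by decide : (4 : ℤ) = (2 : ℕ) ^ 2), jacobiSym.sq_one' h2]
    rw [h4, one_mul]

/-- the discriminant of a fundamental discriminant: `sqp D` is `D` or `D / 4` -/
lemma sqp_fund {D : ℤ} (hD : Fd D) : Dm (sqp D) = D ∧ sqp D ≠ 0 ∧ |sqp D| ≤ |D| := by
  rcases hD with ⟨h1, h2⟩ | ⟨d, rfl, h1, h2⟩
  · rw [sqp_self h2]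
    refine ⟨?_, h2.ne_zero, le_rfl⟩
    unfold Dm
    rw [if_pos h1]
  · have e : (4 : ℤ) * d = d * 2 ^ 2 := by ring
    rw [e, sqp_eq h2 (by norm_num)]
    refine ⟨?_, h2.ne_zero, ?_⟩
    · unfold Dm
      rw [if_neg (by omega)]
      ring
    · rw [abs_mul]
      have := abs_nonneg d
      norm_num
      linarith

lemma fd_ne {D : ℤ} (hD : Fd D) : D ≠ 0 := hD.ne

/-! ### Kronecker symbols -/

/-- `kr` of a discriminant `Dm s` at odd `n` -/
lemma kr_Dm {s : ℤ} (hs : Squarefree s) {n : ℕ} (hn : n % 2 = 1) :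
    kr (Dm s) n = jacobiSym s n := by
  rw [kr_odd (fd_Dm hs) (Nat.odd_iff.2 hn), jacobi_Dm s (Nat.odd_iff.2 hn)]

lemma kr_four_one {m : ℤ} (hm : Squarefree m) (h : m % 4 = 1) {n : ℕ} (hn : n % 2 = 1) :
    kr m n = jacobiSym m n := by
  have := kr_Dm hm hn
  unfold Dm at this
  rwa [if_pos h] at this

/-- the sign in the class of `1` -/
lemma jac_class {M : ℕ} (hM : 0 < M) {m : ℤ} (h : (4 * M : ℤ) ∣ m - 1) :
    J((M : ℤ) | m.natAbs) = 1 := by
  obtain ⟨k, hk⟩ := h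
  have hodd : Odd m.natAbs := by
    rw [Nat.odd_iff]
    have h4 : (2 : ℤ) ∣ m - 1 := ⟨2 * M * k, by rw [hk]; ring⟩
    omega
  have h1 := jacobiSym.mod_right (M : ℤ) hodd
  rw [Int.natAbs_natCast] at h1
  rw [h1]
  rcases le_total 0 m with h0 | h0
  · have e : m.natAbs % (4 * M) = 1 := by
      have e1 : ((m.natAbs : ℕ) : ℤ) = 1 + (4 * M : ℕ) * k := by
        rw [Int.natAbs_of_nonneg h0]; push_cast; linarith
      have e2 : (((m.natAbs % (4 * M) : ℕ)) : ℤ) = 1 := by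
        rw [Int.natCast_mod, e1, Int.add_mul_emod_self_left]
        exact Int.emod_eq_of_lt (by norm_num) (by push_cast; omega)
      exact_mod_cast e2
    rw [e, jacobiSym.one_right]
  · have e : m.natAbs % (4 * M) = 4 * M - 1 := by
      have e1 : ((m.natAbs : ℕ) : ℤ) = (4 * M - 1 : ℤ) + (4 * M : ℕ) * (-k - 1) := by
        rw [Int.ofNat_natAbs_of_nonpos h0]; push_cast; linarith
      have e2 : (((m.natAbs % (4 * M) : ℕ)) : ℤ) = 4 * M - 1 := by
        rw [Int.natCast_mod, e1, Int.add_mul_emod_self_left]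
        exact Int.emod_eq_of_lt (by omega) (by push_cast; omega)
      omega
    rw [e]
    set b := 4 * M - 1 with hb
    have hbodd : Odd b := by rw [Nat.odd_iff]; omega
    have hb2 : J((4 : ℤ) | b) = 1 := by
      have h2 : Int.gcd (2 : ℕ) b = 1 := by
        rw [Int.gcd_natCast_natCast, Nat.coprime_two_left.2 hbodd]
      rw [(by decide : (4 : ℤ) = (2 : ℕ) ^ 2), jacobiSym.sq_one' h2]
    have h3 : J((4 * M : ℤ) | b) = 1 := by
      rw [jacobiSym.mod_left]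
      have e3 : (4 * M : ℤ) % b = 1 % b := by
        have e4 : (4 * M : ℤ) = 1 + b := by omega
        rw [e4, Int.add_emod_right]
      rw [e3, ← jacobiSym.mod_left, jacobiSym.one_left]
    rw [jacobiSym.mul_left, hb2, one_mul] at h3
    exact h3

/-- the sign of the twists in the class of `1` -/
lemma kr_neg_class {M : ℕ} (hM : 0 < M) {m : ℤ} (h : (4 * M : ℤ) ∣ m - 1) :
    kr m (-(M : ℤ)) = m.sign := by
  obtain ⟨k, hk⟩ := h
  have h1 : m % 4 = 1 := by
    have : (4 : ℤ) ∣ m - 1 := ⟨M * k, by rw [hk]; ring⟩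
    omega
  rw [kr_one_mod h1]
  show J(-(M : ℤ) | m.natAbs) = _
  have hodd : Odd m.natAbs := by
    rw [Nat.odd_iff]
    omega
  have e : -(M : ℤ) = -1 * M := by ring
  rw [e, jacobiSym.mul_left, jac_class hM ⟨k, hk⟩, mul_one, jacobiSym.at_neg_one hodd]
  rcases le_total 0 m with h0 | h0
  · have h2 : m.natAbs % 4 = 1 := by omega
    rw [ZMod.χ₄_nat_one_mod_four h2, Int.sign_eq_one_of_pos (by omega)]
  · have h2 : m.natAbs % 4 = 3 := by omega
    rw [ZMod.χ₄_nat_three_mod_four h2, Int.sign_eq_neg_one_of_neg (by omega)]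

/-- the sign of the twists in general -/
lemma kr_neg {m : ℤ} (h1 : m % 4 = 1) (x : ℤ) :
    kr m (-x) = m.sign * J(x | m.natAbs) := by
  rw [kr_one_mod h1]
  show J(-x | m.natAbs) = _
  have hodd : Odd m.natAbs := by
    rw [Nat.odd_iff]
    omega
  have e : -x = -1 * x := by ring
  rw [e, jacobiSym.mul_left, jacobiSym.at_neg_one hodd]
  rcases le_total 0 m with h0 | h0
  · have h2 : m.natAbs % 4 = 1 := by omega
    rw [ZMod.χ₄_nat_one_mod_four h2, Int.sign_eq_one_of_pos (by omega)]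
  · have h2 : m.natAbs % 4 = 3 := by omega
    rw [ZMod.χ₄_nat_three_mod_four h2, Int.sign_eq_neg_one_of_neg (by omega)]

end T8
end P004N
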