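import Vale.Agent.P004N.H3.Sys
import Vale.Agent.P004X.P004G.Iface

/-!
# P004N, module T8: the coefficient system of a twist (Ramanujan-free class `Crv` of the fork)
-/

open Real MeasureTheory Set Filter
open scoped ENNReal Topology NumberTheorySymbols

namespace P004N
namespace T8

open P004 (IsFund Fam)
open P004.QN (sfk TwSign)
open P004G
open Vale.Agent.P004H.H871 (kr Fd kr_odd kr_one_mod kr_zero kr_pm kr_mul kr_one)

/-- bounds for the coefficients at the good primes -/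
structure CfB (a : ℕ → ℤ) (B : ℕ) : Prop where
  big : ∀ p : ℕ, p.Prime → ¬ p ∣ B → 10000 ≤ p
  pow : ∃ δ : ℝ, 0 < δ ∧ ∀ p : ℕ, p.Prime → ¬ p ∣ B → |(a p : ℝ)| ≤ (p : ℝ) ^ (1 - δ) / 100
  mert : ∃ C : ℝ, ∀ x : ℝ, 1 ≤ x → |∑ p ∈ Finset.range (⌊x⌋₊ + 1),
    (if p.Prime ∧ ¬ p ∣ B then ((a p : ℝ) ^ 2 / p - 1) * Real.log p / p else 0)| ≤ C

variable {a : ℕ → ℤ} {B : ℕ} {η : ℝ} {Rk : ℤ → ℕ} {d : ℤ} {A : ℕ → ℝ} {M : ℕ} {ε : ℝ}

/-- the coefficient system of the twist by `d` -/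
@[reducible] noncomputable def crv (h : TwS a B η Rk) (hb : CfB a B) (d : ℤ) (hd : d ∣ B) :
    Crv where
  bd := B
  bd_ne := h.ne
  two_dvd := h.two
  c := cf a B d
  c_one := cf_one h d
  c_bad _ hn := cf_bad hn
  c_mul m n hmn := cf_mul h d m n hmn
  c_hecke p k hpp hpb := cf_hecke h hd p k hpp hpb
  c_big := hb.big
  c_pow := by
    obtain ⟨δ, hδ, h1⟩ := hb.pow
    refine ⟨δ, hδ, fun p hp hpb => ?_⟩
    have hcp : p.Coprime B := (Nat.Prime.coprime_iff_not_dvd hp).2 hpb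
    have h2 : (cf a B d p) ^ 2 = (a p) ^ 2 := cf_sq hd hcp
    have h3 : |((cf a B d p : ℤ) : ℝ)| = |((a p : ℤ) : ℝ)| := by
      rw [← sq_eq_sq_iff_abs_eq_abs]
      exact_mod_cast h2
    rw [h3]
    exact h1 p hp hpb
  c_mert := by
    obtain ⟨C, h1⟩ := hb.mert
    refine ⟨C, fun x hx => ?_⟩
    have e : ∀ p : ℕ, (if p.Prime ∧ ¬ p ∣ B then
        (((cf a B d p : ℤ) : ℝ) ^ 2 / p - 1) * Real.log p / p else 0) =
        (if p.Prime ∧ ¬ p ∣ B then ((a p : ℝ) ^ 2 / p - 1) * Real.log p / p else 0) := by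
      intro p
      split_ifs with h4
      · have hcp : p.Coprime B := (Nat.Prime.coprime_iff_not_dvd h4.1).2 h4.2
        have h2 : (cf a B d p) ^ 2 = (a p) ^ 2 := cf_sq hd hcp
        have h3 : (((cf a B d p : ℤ) : ℝ)) ^ 2 = ((a p : ℤ) : ℝ) ^ 2 := by exact_mod_cast h2
        rw [h3]
      · rfl
    rw [Finset.sum_congr rfl fun p _ => e p]
    exact h1 x hx

/-- the data of the twists -/
def StTFr' [Crv] : Prop :=
  ∃ (k₀ : ℕ) (η : ℝ), 1 ≤ k₀ ∧ 0 < η ∧ ∀ m : ℤ, Squarefree m →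
    ∃ (A : ℕ → ℝ) (q κ : ℝ), LDr A ∧ (∀ p : ℕ, p.Prime → |A p| ≤ p + 1 - η) ∧
      FEr A q κ ∧ (∀ n : ℕ, n.Coprime bd → A n = ca n * jacobiSym m n) ∧
      |(m : ℝ)| / k₀ ≤ √q ∧ √q ≤ k₀ * |(m : ℝ)|

open scoped Classical in
/-- **the functional equations of all twists** -/
theorem stTF (h : TwS a B η Rk) (hb : CfB a B) (hds : Squarefree d) (hd : d ∣ B) :
    @StTFr' (crv h hb d hd) := by
  let I : Crv := crv h hb d hd
  have h2 := h.two
  have hB0 : 0 < B := Nat.pos_of_ne_zero h.ne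
  have hB1 : (1 : ℝ) ≤ B := by exact_mod_cast hB0
  -- a bound for the levels
  choose! Af Mf εf hT using h.all
  set S : Finset ℤ := (Finset.Icc (-(B : ℤ)) B).filter (fun d => Squarefree d ∧ d ∣ B) with hS
  set K : ℕ := ∑ d ∈ S, Mf d with hK
  have hMK : ∀ d' : ℤ, Squarefree d' → d' ∣ B → Mf d' ≤ K := by
    intro d' h3 h4
    refine Finset.single_le_sum (f := Mf) (fun _ _ => Nat.zero_le _) ?_
    rw [hS, Finset.mem_filter, Finset.mem_Icc]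
    have h5 : |d'| ≤ B := Int.le_of_dvd (by exact_mod_cast hB0) ((abs_dvd _ _).2 h4)
    exact ⟨abs_le.1 h5, h3, h4⟩
  set k₀ : ℕ := 2 * B * B + K * B with hk₀
  have hk₀1 : 1 ≤ k₀ := by
    have : 0 < 2 * B * B := by positivity
    omega
  refine ⟨k₀, min η 1, hk₀1, lt_min h.eta one_pos, fun m hm => ?_⟩
  obtain ⟨d', n, hdn, hd's, hd'B, hn, hjac, hle1, hle2⟩ := decomp_tw h2 h.ne hds hd hm
  have hD := hT d' hd's hd'B
  set M' := Mf d' with hM'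
  have hM1 : (1 : ℝ) ≤ M' := by exact_mod_cast hD.mpos
  have hMK' : (M' : ℝ) ≤ K := by exact_mod_cast hMK d' hd's hd'B
  have hn0 : (0 : ℝ) ≤ |(n : ℝ)| := abs_nonneg _
  have hm0 : (0 : ℝ) ≤ |(m : ℝ)| := abs_nonneg _
  have hle1' : |(m : ℝ)| ≤ B * B * |(n : ℝ)| := by exact_mod_cast hle1
  have hle2' : |(n : ℝ)| ≤ B * |(m : ℝ)| := by exact_mod_cast hle2
  have hkr : ∀ n' : ℤ, ∀ k : ℕ, Adm B n' → |(kr n' k : ℝ)| ≤ 1 := by
    intro n' k hn'
    have hF : Fd n' := Or.inl ⟨hn'.2.1, hn'.1⟩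
    by_cases hc : IsCoprime n' (k : ℤ)
    · rcases kr_pm hF hc with h5 | h5 <;> rw [h5] <;> norm_num
    · rw [kr_zero hF hc]; norm_num
  refine ⟨twr (Af d') n, M' * (n : ℝ) ^ 2 / 4, _, hD.ld n hn, ?_, hD.fe n hn, ?_, ?_, ?_⟩
  · -- bounds at the primes
    intro p hp
    have h5 : |twr (Af d') n p| ≤ |Af d' p| := by
      unfold twr
      rw [abs_mul]
      exact mul_le_of_le_one_right (abs_nonneg _) (hkr n p hn)
    refine h5.trans ((hD.et p hp).trans ?_)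
    linarith [min_le_left η 1]
  · -- coefficients
    intro k hk
    have hk' : k.Coprime B := hk
    have hko := (cop_ne h2 hk').1
    have e1 : ca k = a k * jacobiSym d k := by
      change cf a B d k = _
      unfold cf
      rw [if_pos hk']
    unfold twr
    rw [hD.co k hk', kr_Dm hd's hko, kr_four_one hn.1 hn.2.1 hko, e1]
    have h5 := hjac k hk'
    have h6 : (jacobiSym d' k : ℝ) * (jacobiSym n k : ℝ) =
        (jacobiSym d k : ℝ) * (jacobiSym m k : ℝ) := by exact_mod_cast h5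
    push_cast
    rw [mul_assoc, h6, mul_assoc]
  · -- lower bound for `q`
    apply Real.le_sqrt_of_sq_le
    have hkp : (0 : ℝ) < k₀ := by exact_mod_cast hk₀1
    rw [div_pow, sq_abs, div_le_iff₀ (by positivity)]
    have h5 : 2 * (B : ℝ) * B ≤ k₀ := by
      rw [hk₀]; push_cast
      have : (0 : ℝ) ≤ (K : ℝ) * B := by positivity
      linarith
    have h6 : (m : ℝ) ^ 2 ≤ (B * B * |(n : ℝ)|) ^ 2 := by
      rw [← sq_abs (m : ℝ)]
      exact pow_le_pow_left₀ hm0 hle1' 2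
    have h7 : (2 * (B : ℝ) * B) ^ 2 ≤ (k₀ : ℝ) ^ 2 := pow_le_pow_left₀ (by positivity) h5 2
    have h8 : (n : ℝ) ^ 2 * (2 * (B : ℝ) * B) ^ 2 ≤ (n : ℝ) ^ 2 * (k₀ : ℝ) ^ 2 :=
      mul_le_mul_of_nonneg_left h7 (sq_nonneg _)
    have h9 : (n : ℝ) ^ 2 * (k₀ : ℝ) ^ 2 ≤ M' * ((n : ℝ) ^ 2 * (k₀ : ℝ) ^ 2) :=
      le_mul_of_one_le_left (by positivity) hM1
    have h10 : (B * B * |(n : ℝ)|) ^ 2 = B ^ 2 * B ^ 2 * (n : ℝ) ^ 2 := by
      rw [mul_pow, sq_abs]; ring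
    rw [h10] at h6
    nlinarith
  · -- upper bound for `q`
    have hkp : (0 : ℝ) < k₀ := by exact_mod_cast hk₀1
    rw [Real.sqrt_le_left (by positivity), mul_pow, sq_abs]
    have h5 : (K : ℝ) * B ≤ k₀ := by
      rw [hk₀]; push_cast
      have : (0 : ℝ) ≤ 2 * (B : ℝ) * B := by positivity
      linarith
    have h6 : (n : ℝ) ^ 2 ≤ B ^ 2 * (m : ℝ) ^ 2 := by
      rw [← sq_abs (n : ℝ), ← sq_abs (m : ℝ), ← mul_pow]
      exact pow_le_pow_left₀ hn0 hle2' 2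
    have hK1 : (1 : ℝ) ≤ K := hM1.trans hMK'
    have h7 : (M' : ℝ) ≤ K ^ 2 := by nlinarith
    calc (M' : ℝ) * (n : ℝ) ^ 2 / 4 ≤ M' * (n : ℝ) ^ 2 := by
          have : 0 ≤ (M' : ℝ) * (n : ℝ) ^ 2 := by positivity
          linarith
      _ ≤ K ^ 2 * (B ^ 2 * (m : ℝ) ^ 2) := mul_le_mul h7 h6 (sq_nonneg _) (by positivity)
      _ = (K * B) ^ 2 * (m : ℝ) ^ 2 := by ring
      _ ≤ (k₀ : ℝ) ^ 2 * (m : ℝ) ^ 2 := by gcongr

end T8
end P004N
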