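import Vale.Agent.P004N.H3.Pur
import Vale.Agent.P004X.P004G.LIface

/-!
# P004N, module T8: from the counting theorems of the library to the families
-/

open Real MeasureTheory Set Filter
open scoped ENNReal Topology NumberTheorySymbols

namespace P004N
namespace T8

open P004 (IsFund Fam)
open P004G
open Vale.Agent.P004H.H871 (kr Fd kr_odd kr_one_mod kr_zero kr_pm kr_mul kr_one)

/-! ### adapters -/

lemma LDe.ld {η : ℝ} {A : ℕ → ℝ} (h : LDe η A) : LD η A where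
  zero := h.2.1.zero
  one := h.2.1.one
  mul := h.2.1.mul
  loc p hp := by
    rcases h.2.1.loc p hp with ⟨h1, -⟩ | h1
    · exact Or.inl ⟨h1, h.2.2 p hp⟩
    · exact Or.inr h1

theorem stEnt_of (h : StLent) : StEnt := by
  intro η A q κ hA hF
  obtain ⟨L, hL, -⟩ := h η A q κ hA.1 hA.ld hF
  exact ⟨L, hL⟩

theorem stRank_of (h : StLrank) : StRank := by
  obtain ⟨C, hC, h1⟩ := h
  exact fun η => ⟨C, hC, fun A q κ L hA hF hL => h1 η A q κ L hA.1 hA.ld hF hL⟩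

theorem stPari_of (h : StLparity) : StPari :=
  fun η A q κ L hA hF hL => h η A q κ L hA.1 hA.ld hF hL

variable {a : ℕ → ℤ} {B : ℕ} {η : ℝ} {Rk : ℤ → ℕ} {d : ℤ} {A : ℕ → ℝ} {M : ℕ} {ε : ℝ}

theorem stTF' (h : TwS a B η Rk) (hb : CfB a B) (hds : Squarefree d) (hd : d ∣ B) :
    @StTF (crv h hb d hd) := by
  obtain ⟨k₀, η', hk₀, hη', h1⟩ := stTF h hb hds hd
  refine ⟨k₀, η', hk₀, hη', fun m hm => ?_⟩
  obtain ⟨A, q, κ, hA, hA', hF, h2, h3, h4⟩ := h1 m hm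
  exact ⟨A, q, κ, LDe.ld ⟨hη', hA, hA'⟩, hF, h2, h3, h4⟩

/-! ### the class of `1` -/

lemma adm_class {N : ℕ} (hB4 : B * 4 ∣ N) {m : ℤ}
    (hm : Squarefree m) (hmN : m % (N : ℤ) = 1) : Adm B m := by
  have hNm : (N : ℤ) ∣ m - 1 := Int.dvd_self_sub_of_emod_eq hmN
  have hB4' : ((B * 4 : ℕ) : ℤ) ∣ m - 1 := Dvd.dvd.trans (by exact_mod_cast hB4) hNm
  obtain ⟨k, hk⟩ := hB4'
  push_cast at hk
  refine ⟨hm, ?_, ?_⟩
  · have : (4 : ℤ) ∣ m - 1 := ⟨B * k, by rw [hk]; ring⟩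
    omega
  · have h1 : IsCoprime m (B : ℤ) := ⟨1, -(4 * k), by linear_combination hk⟩
    rw [Int.isCoprime_iff_gcd_eq_one, Int.gcd_eq_natAbs, Int.natAbs_natCast] at h1
    exact h1

/-- the theta series of the pure twists -/
lemma theta_pure (h : TwS a B η Rk) (hb : CfB a B) (hp : TwP a B η Rk d A M ε) {m : ℤ}
    (hm : Adm B m) (u : ℝ) : @theta (crv h hb d hp.dvd) m u = THr (twr A m) u := by
  let I : Crv := crv h hb d hp.dvd
  unfold theta THr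
  congr 1
  refine tsum_congr fun n => ?_
  congr 1
  change ((cf a B d n : ℤ) : ℝ) * chi m n = A n * kr m n
  rw [← hp.cf_eq h n]
  by_cases hn : n.Coprime B
  · rw [kr_four_one hm.1 hm.2.1 (cop_ne h.two hn).1]
    rfl
  · rw [hp.van n hn, zero_mul, zero_mul]

/-- the root number in the class of `1` -/
lemma fe_class (hp : TwP a B η Rk d A M ε) {N : ℕ} (hN : B * 4 ∣ N) (hMN : 4 * M ∣ N)
    {m : ℤ} (hm : Squarefree m) (hmN : m % (N : ℤ) = 1) :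
    FEr (twr A m) (M * (m : ℝ) ^ 2 / 4) (-(ε * (m.sign : ℤ))) := by
  have hNm : (N : ℤ) ∣ m - 1 := Int.dvd_self_sub_of_emod_eq hmN
  have h1 := hp.fe m (adm_class hN hm hmN)
  rw [kr_neg_class hp.mpos (Dvd.dvd.trans (by exact_mod_cast hMN) hNm)] at h1
  exact h1

/-- the input: counting in the class of `1` -/
def Cnt [Crv] (κ : ℝ) (r : ℕ) : Prop := ∀ (σ : ℤ) (N : ℕ) (q₀ : ℝ), (σ = 1 ∨ σ = -1) → 0 < N →
  8 ∣ N → bd ∣ N → 0 < q₀ → (∀ m : ℤ, Squarefree m → m.sign = σ → m % (N : ℤ) = 1 → m ≠ 1 →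
    0 < q₀ * (m : ℝ) ^ 2 ∧ ∀ u : ℝ, 0 < u →
      theta m u = κ / (q₀ * (m : ℝ) ^ 2 * u ^ 2) * theta m (1 / (q₀ * (m : ℝ) ^ 2 * u))) →
  ∃ c : ℝ, 0 < c ∧ ∃ Y₀ : ℕ, ∀ Y : ℕ, Y₀ ≤ Y → ∃ S : Finset ℤ, c * Y ≤ (S.card : ℝ) ∧
    ∀ m ∈ S, m.natAbs ≤ Y ∧ Y < 2 * m.natAbs ∧ Squarefree m ∧ m.sign = σ ∧ m % (N : ℤ) = 1 ∧
      ¬ Van m r

/-- from the class of `1` to the family -/
theorem pos_all (h : TwS a B η Rk) (hb : CfB a B) (hp : TwP a B η Rk d A M ε)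
    (hEnt : StLent) (hPar : StLparity) (hVan : @StVan1 (crv h hb d hp.dvd)) {κ : ℝ} {r : ℕ}
    (hκ : κ = 1 ∨ κ = -1) (hcnt : @Cnt (crv h hb d hp.dvd) κ r) {e : ℤ} (he : e ≠ 0) :
    Pos (fun D => rkE Rk e D < r ∧ (κ = 1 ↔ Even (rkE Rk e D))) := by
  classical
  let I : Crv := crv h hb d hp.dvd
  have hM0 := hp.mpos
  refine pos_of (Q := fun s => Rk s < r ∧ (κ = 1 ↔ Even (Rk s))) (N₀ := 8 * B * M) hp.sqf
    (hp.dvd.trans (by exact_mod_cast (⟨8 * M, by ring⟩ : B ∣ 8 * B * M)))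
    ⟨2 * B * M, by ring⟩ (by have := Nat.pos_of_ne_zero h.ne; positivity) ?_ he
  intro N hN hN0
  have hB4 : B * 4 ∣ N := Dvd.dvd.trans ⟨2 * M, by ring⟩ hN0
  have h4M : 4 * M ∣ N := Dvd.dvd.trans ⟨2 * B, by ring⟩ hN0
  obtain ⟨σ, hσ, hσκ⟩ : ∃ σ : ℤ, (σ = 1 ∨ σ = -1) ∧ -(ε * (σ : ℝ)) = κ := by
    rcases hp.eps with h1 | h1 <;> rcases hκ with h2 | h2
    · exact ⟨-1, Or.inr rfl, by rw [h1, h2]; norm_num⟩
    · exact ⟨1, Or.inl rfl, by rw [h1, h2]; norm_num⟩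
    · exact ⟨1, Or.inl rfl, by rw [h1, h2]; norm_num⟩
    · exact ⟨-1, Or.inr rfl, by rw [h1, h2]; norm_num⟩
  have hMp : (0 : ℝ) < M := by exact_mod_cast hM0
  obtain ⟨c, hc, Y₀, hY⟩ := hcnt σ N (M / 4) hσ hN (Dvd.dvd.trans ⟨B * M, by ring⟩ hN0)
    (Dvd.dvd.trans (⟨8 * M, by ring⟩ : B ∣ 8 * B * M) hN0) (by positivity) (by
      intro m hm hms hmN hm1
      have hfe := fe_class hp hB4 h4M hm hmN
      rw [hms, hσκ] at hfe
      have e1 : (M : ℝ) / 4 * (m : ℝ) ^ 2 = M * (m : ℝ) ^ 2 / 4 := by ring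
      have hadm := adm_class hB4 hm hmN
      rw [e1]
      refine ⟨hfe.1, fun u hu => ?_⟩
      rw [theta_pure h hb hp hadm, theta_pure h hb hp hadm]
      exact hfe.2.2 u hu)
  refine ⟨c, hc, Y₀ + 2, fun Y hYY => ?_⟩
  obtain ⟨S, hS, hSm⟩ := hY Y (by omega)
  refine hS.trans (Nat.cast_le.2 (Finset.card_le_card ?_))
  intro m hmS
  obtain ⟨h1, h2, h3, h4, h5, h6⟩ := hSm m hmS
  simp only [Finset.mem_filter]
  refine ⟨mem_sqI.2 ⟨h1, h3⟩, by rintro rfl; simp at h2; omega, h5, ?_⟩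
  have hadm := adm_class hB4 h3 h5
  have hfe := fe_class hp hB4 h4M h3 h5
  rw [h4, hσκ] at hfe
  have hld := (hp.toTwD.lde h.eta hadm).ld
  obtain ⟨L, hL, -⟩ := hEnt η _ _ _ h.eta hld hfe
  have hrk := hp.rk m hadm L hL
  have hpar := hPar η _ _ _ L h.eta hld hfe hL
  have hvan := hVan m η _ _ _ L h.eta hld hfe hL (by
    intro n hn
    change twr A m n = ((cf a B d n : ℤ) : ℝ) * ((jacobiSym m n : ℤ) : ℝ)
    unfold twr
    rw [hp.cf_eq h n, kr_four_one hadm.1 hadm.2.1 (cop_ne h.two hn).1])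
  rw [← hrk] at hpar hvan
  refine ⟨?_, hpar⟩
  by_contra h7
  rw [not_lt] at h7
  exact h6 fun i hi => hvan i (lt_of_lt_of_le hi h7)

/-- rank exactly one -/
theorem pos_one {r : ℤ → ℕ} (h : Pos (fun D => r D < 2 ∧ ((-1 : ℝ) = 1 ↔ Even (r D)))) :
    Pos (fun D => r D = 1) := by
  obtain ⟨c, hc, X₀, h1⟩ := h
  refine ⟨c, hc, X₀, fun X hX => (h1 X hX).trans (Nat.cast_le.2 (Finset.card_le_card ?_))⟩
  intro D hD
  simp only [Finset.mem_filter] at hD ⊢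
  obtain ⟨h2, h3, h4⟩ := hD
  refine ⟨h2, ?_⟩
  have h5 : ¬ Even (r D) := fun h6 => by
    have := h4.2 h6
    norm_num at this
  rw [Nat.not_even_iff_odd] at h5
  obtain ⟨k, hk⟩ := h5
  omega

/-- rank zero or two -/
theorem pos_two {r : ℤ → ℕ} (h : Pos (fun D => r D < 3 ∧ ((1 : ℝ) = 1 ↔ Even (r D)))) :
    Pos (fun D => r D = 0 ∨ r D = 2) := by
  obtain ⟨c, hc, X₀, h1⟩ := h
  refine ⟨c, hc, X₀, fun X hX => (h1 X hX).trans (Nat.cast_le.2 (Finset.card_le_card ?_))⟩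
  intro D hD
  simp only [Finset.mem_filter] at hD ⊢
  obtain ⟨h2, h3, h4⟩ := hD
  refine ⟨h2, ?_⟩
  obtain ⟨k, hk⟩ := h4.1 trivial
  omega

end T8
end P004N
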