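import Vale.Agent.P004N.Defs

/-!
# P004N: `S2` and Mathlib's `CuspForm`
-/

open UpperHalfPlane CongruenceSubgroup
open scoped MatrixGroups ModularForm Manifold Real

namespace P004N
namespace T8

/-- the cusp forms of weight two on `Γ₀(N)` -/
abbrev CF (N : ℕ) : Type :=
  CuspForm ((CongruenceSubgroup.Gamma0 N).map (Matrix.SpecialLinearGroup.mapGL ℝ)) 2

theorem s2_of_cusp {N : ℕ} (hN : 0 < N) (F : CF N) : S2 N F where
  holo := CuspFormClass.holo F
  slash γ hγ := by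
    have h := SlashInvariantFormClass.slash_action_eq F (Matrix.SpecialLinearGroup.mapGL ℝ γ)
      ⟨γ, hγ, rfl⟩
    exact h
  zero γ := by
    have : NeZero N := ⟨hN.ne'⟩
    exact CuspFormClass.zero_at_infty_slash F γ

theorem cusp_of_s2 {N : ℕ} {f : ℍ → ℂ} (hN : 0 < N) (h : S2 N f) : ∃ F : CF N, (F : ℍ → ℂ) = f := by
  have : NeZero N := ⟨hN.ne'⟩
  refine ⟨⟨⟨f, ?_⟩, h.holo, ?_⟩, rfl⟩
  · rintro g ⟨γ, hγ, rfl⟩
    exact h.slash γ hγ
  · intro c hc
    rw [Subgroup.IsArithmetic.isCusp_iff_isCusp_SL2Z] at hc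
    rw [OnePoint.isZeroAt_iff_forall_SL2Z hc]
    intro γ _
    exact h.zero γ

end T8
end P004N
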