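import Vale.Agent.P004N.H3.Nf

/-!
# P004N, module T8: removing Euler factors does not change the order of vanishing at `1`
-/

open Real Filter

namespace P004N
namespace T8

/-- the coefficients prime to `B` -/
noncomputable def inc (B : ℕ) (A : ℕ → ℝ) (n : ℕ) : ℝ := if n.Coprime B then A n else 0

/-- the coefficients prime to the prime `p` -/
noncomputable def incp (p : ℕ) (A : ℕ → ℝ) (n : ℕ) : ℝ := if p ∣ n then 0 else A n

/-- the Dirichlet series -/
def Sm (A : ℕ → ℝ) : Prop := ∀ s : ℂ, 2 < s.re → Summable fun n : ℕ => (A n : ℂ) / (n : ℂ) ^ s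

lemma Sm.incp {A : ℕ → ℝ} (h : Sm A) (p : ℕ) : Sm (incp p A) := by
  intro s hs
  refine Summable.of_norm_bounded (h s hs).norm fun n => ?_
  unfold P004N.T8.incp
  split_ifs
  · rw [Complex.ofReal_zero, zero_div, norm_zero]
    exact norm_nonneg _
  · exact le_rfl

lemma tsum_mult {p : ℕ} (hp : p.Prime) (G : ℕ → ℂ) :
    ∑' n : ℕ, (if p ∣ n then G n else 0) = ∑' m : ℕ, G (p * m) := by
  have hinj : Function.Injective (fun m : ℕ => p * m) := mul_right_injective₀ hp.ne_zero
  rw [← hinj.tsum_eq (f := fun n : ℕ => if p ∣ n then G n else 0)]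
  · refine tsum_congr fun m => ?_
    rw [if_pos (Dvd.intro _ rfl)]
  · intro n hn
    by_contra h
    apply hn
    show (if p ∣ n then G n else 0) = 0
    rw [if_neg]
    rintro ⟨m, rfl⟩
    exact h ⟨m, rfl⟩

lemma summable_mult {p : ℕ} {G : ℕ → ℂ} (h : Summable G) :
    Summable (fun n : ℕ => if p ∣ n then G n else 0) := by
  refine Summable.of_norm_bounded h.norm fun n => ?_
  split_ifs
  · exact le_rfl
  · simp

/-- the Euler factor -/
theorem remove_series {A : ℕ → ℝ} {p : ℕ} (hp : p.Prime) {T R : ℝ}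
    (hrel : ∀ n : ℕ, A (p * n) = T * A n - (if p ∣ n then R * A (n / p) else 0)) {s : ℂ}
    (hs : Summable fun n : ℕ => (A n : ℂ) / (n : ℂ) ^ s) :
    ∑' n : ℕ, ((incp p A n : ℝ) : ℂ) / (n : ℂ) ^ s =
      (1 - T * (p : ℂ) ^ (-s) + R * (p : ℂ) ^ (-2 * s)) * ∑' n : ℕ, (A n : ℂ) / (n : ℂ) ^ s := by
  set F : ℕ → ℂ := fun n => (A n : ℂ) / (n : ℂ) ^ s with hF
  have hp0 : (p : ℂ) ≠ 0 := by exact_mod_cast hp.ne_zero
  have e1 : ∀ n : ℕ, ((incp p A n : ℝ) : ℂ) / (n : ℂ) ^ s = F n - (if p ∣ n then F n else 0) := by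
    intro n
    unfold incp
    split_ifs
    · simp
    · simp [hF]
  have e2 : ∑' n : ℕ, (if p ∣ n then F n else 0) = ∑' m : ℕ, F (p * m) := tsum_mult hp F
  have hpow : ∀ m : ℕ, ((p * m : ℕ) : ℂ) ^ s = (p : ℂ) ^ s * (m : ℂ) ^ s := by
    intro m
    rw [Nat.cast_mul]
    exact Complex.natCast_mul_natCast_cpow p m s
  have hps : (p : ℂ) ^ (-s) = ((p : ℂ) ^ s)⁻¹ := Complex.cpow_neg _ _
  have hps2 : (p : ℂ) ^ (-2 * s) = ((p : ℂ) ^ s)⁻¹ * ((p : ℂ) ^ s)⁻¹ := by
    rw [← hps, ← Complex.cpow_add _ _ hp0]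
    congr 1
    ring
  have hpne : (p : ℂ) ^ s ≠ 0 := by
    rw [Complex.cpow_def_of_ne_zero hp0]
    exact Complex.exp_ne_zero _
  have e3 : ∀ m : ℕ, F (p * m) = T * (p : ℂ) ^ (-s) * F m -
      (R * (p : ℂ) ^ (-s)) * (if p ∣ m then ((A (m / p) : ℝ) : ℂ) / (m : ℂ) ^ s else 0) := by
    intro m
    simp only [hF]
    rw [hrel, hpow, hps]
    split_ifs with h
    · push_cast
      field_simp
    · push_cast
      field_simp
      ring
  have hs3 : Summable (fun m : ℕ => if p ∣ m then ((A (m / p) : ℝ) : ℂ) / (m : ℂ) ^ s else 0) := by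
    have hinj : Function.Injective (fun m : ℕ => p * m) := mul_right_injective₀ hp.ne_zero
    rw [← hinj.summable_iff]
    · have : ((fun m : ℕ => if p ∣ m then ((A (m / p) : ℝ) : ℂ) / (m : ℂ) ^ s else 0) ∘
          fun m : ℕ => p * m) = fun m => (p : ℂ) ^ (-s) * F m := by
        funext m
        simp only [Function.comp]
        rw [if_pos (Dvd.intro _ rfl), Nat.mul_div_cancel_left _ hp.pos, hpow, hps]
        simp only [hF]
        field_simp
      rw [this]
      exact hs.mul_left _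
    · intro n hn
      rw [if_neg]
      rintro ⟨m, rfl⟩
      exact hn ⟨m, rfl⟩
  have e4 : ∑' m : ℕ, (if p ∣ m then ((A (m / p) : ℝ) : ℂ) / (m : ℂ) ^ s else 0) =
      (p : ℂ) ^ (-s) * ∑' m : ℕ, F m := by
    rw [tsum_mult hp (fun m : ℕ => ((A (m / p) : ℝ) : ℂ) / (m : ℂ) ^ s), ← tsum_mul_left]
    refine tsum_congr fun m => ?_
    rw [Nat.mul_div_cancel_left _ hp.pos, hpow, hps]
    simp only [hF]
    field_simp
  rw [tsum_congr e1, Summable.tsum_sub hs (summable_mult hs), e2, tsum_congr e3,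
    Summable.tsum_sub (hs.mul_left _) (hs3.mul_left _), tsum_mul_left, tsum_mul_left, e4, hps2,
    ← hps]
  ring

/-- the relation at `p` for an Euler product -/
lemma ldr_rel {A : ℕ → ℝ} (h : LDr A) {p : ℕ} (hp : p.Prime) :
    ∃ R : ℝ, (R = p ∧ |A p| ≤ p + 1 ∨ R = 0 ∧ |A p| ≤ 1) ∧
      ∀ n : ℕ, A (p * n) = A p * A n - (if p ∣ n then R * A (n / p) else 0) := by
  have hsplit : ∀ n : ℕ, n ≠ 0 → ∃ k m : ℕ, n = p ^ k * m ∧ ¬ p ∣ m := by
    intro n hn
    obtain ⟨k, m, hm, he⟩ := Nat.exists_eq_pow_mul_and_not_dvd hn p hp.ne_one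
    exact ⟨k, m, he, hm⟩
  have hcop : ∀ j m : ℕ, ¬ p ∣ m → (p ^ j).Coprime m := fun j m hm =>
    ((Nat.Prime.coprime_iff_not_dvd hp).2 hm).pow_left j
  rcases h.loc p hp with ⟨h1, h2⟩ | ⟨h1, h2⟩
  · refine ⟨p, Or.inl ⟨rfl, h2⟩, fun n => ?_⟩
    rcases eq_or_ne n 0 with rfl | hn
    · simp [h.zero]
    obtain ⟨k, m, rfl, hm⟩ := hsplit n hn
    have e1 : p * (p ^ k * m) = p ^ (k + 1) * m := by ring
    rw [e1, h.mul _ _ (hcop _ m hm), h.mul _ _ (hcop _ m hm)]
    rcases Nat.eq_zero_or_pos k with rfl | hk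
    · rw [pow_zero, one_mul, if_neg hm, zero_add, pow_one, h.one]
      ring
    · obtain ⟨j, rfl⟩ : ∃ j, k = j + 1 := ⟨k - 1, by omega⟩
      have e2 : p ^ (j + 1) * m / p = p ^ j * m := by
        rw [pow_succ, mul_comm (p ^ j) p, mul_assoc, Nat.mul_div_cancel_left _ hp.pos]
      rw [if_pos (Dvd.dvd.mul_right (dvd_pow_self p (Nat.succ_ne_zero j)) m), e2,
        h.mul _ _ (hcop _ m hm), h1 j]
      ring
  · refine ⟨0, Or.inr ⟨rfl, h2⟩, fun n => ?_⟩
    rcases eq_or_ne n 0 with rfl | hn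
    · simp [h.zero]
    obtain ⟨k, m, rfl, hm⟩ := hsplit n hn
    have e1 : p * (p ^ k * m) = p ^ (k + 1) * m := by ring
    rw [e1, h.mul _ _ (hcop _ m hm), h.mul _ _ (hcop _ m hm), h1 k]
    simp
    ring

/-- removing a prime gives an Euler product -/
lemma LDr.incp {A : ℕ → ℝ} (h : LDr A) {p : ℕ} (hp : p.Prime) : LDr (incp p A) where
  zero := by unfold P004N.T8.incp; simp
  one := by
    unfold P004N.T8.incp
    rw [if_neg hp.not_dvd_one, h.one]
  mul m n hmn := by
    unfold P004N.T8.incp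
    by_cases h1 : p ∣ m
    · rw [if_pos h1, if_pos (h1.mul_right n), zero_mul]
    · by_cases h2 : p ∣ n
      · rw [if_pos h2, if_pos (h2.mul_left m), mul_zero]
      · have h3 : ¬ p ∣ m * n := by
          intro h4
          rcases (Nat.Prime.dvd_mul hp).1 h4 with h5 | h5
          · exact h1 h5
          · exact h2 h5
        rw [if_neg h1, if_neg h2, if_neg h3, h.mul m n hmn]
  loc q hq := by
    by_cases hpq : q = p
    · subst hpq
      right
      have hz : ∀ k : ℕ, P004N.T8.incp q A (q ^ (k + 1)) = 0 := by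
        intro k
        unfold P004N.T8.incp
        rw [if_pos (dvd_pow_self q (Nat.succ_ne_zero k))]
      have h0 : P004N.T8.incp q A q = 0 := by simpa using hz 0
      refine ⟨fun k => by rw [hz, h0, zero_mul], by rw [h0]; norm_num⟩
    · have hne : ∀ k : ℕ, ¬ p ∣ q ^ k := by
        intro k h1
        exact hpq ((Nat.prime_dvd_prime_iff_eq hp hq).1 (hp.dvd_of_dvd_pow h1)).symm
      have e : ∀ k : ℕ, P004N.T8.incp p A (q ^ k) = A (q ^ k) := by
        intro k
        unfold P004N.T8.incp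
        rw [if_neg (hne k)]
      have e1 : P004N.T8.incp p A q = A q := by simpa using e 1
      simp only [e, e1]
      exact h.loc q hq

/-- one Euler factor -/
theorem remove_one {A : ℕ → ℝ} (h : LDr A) (hS : Sm A) {p : ℕ} (hp : p.Prime)
    (hA : |A p| < p + 1) {L : ℂ → ℂ} (hL : IsLr A L) :
    ∃ L' : ℂ → ℂ, IsLr (incp p A) L' ∧ analyticOrderAt L' 1 = analyticOrderAt L 1 := by
  obtain ⟨R, hR, hrel⟩ := ldr_rel h hp
  have hp2 : (2 : ℝ) ≤ p := by exact_mod_cast hp.two_le
  have hp0 : (p : ℂ) ≠ 0 := by exact_mod_cast hp.ne_zero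
  set E : ℂ → ℂ := fun s => 1 - A p * (p : ℂ) ^ (-s) + R * (p : ℂ) ^ (-2 * s) with hE
  have hEd : Differentiable ℂ E := by
    intro s
    refine DifferentiableAt.add (DifferentiableAt.sub (differentiableAt_const _)
      (DifferentiableAt.const_mul ?_ _)) (DifferentiableAt.const_mul ?_ _)
    · exact DifferentiableAt.const_cpow differentiableAt_id.neg (Or.inl hp0)
    · exact DifferentiableAt.const_cpow (differentiableAt_id.const_mul _) (Or.inl hp0)
  have hE1 : E 1 ≠ 0 := by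
    have e1 : E 1 = ((1 - A p / p + R / p ^ 2 : ℝ) : ℂ) := by
      simp only [hE]
      have h1 : (p : ℂ) ^ (-(1 : ℂ)) = ((p : ℂ))⁻¹ := by
        rw [Complex.cpow_neg, Complex.cpow_one]
      have h2 : (p : ℂ) ^ (-2 * (1 : ℂ)) = ((p : ℂ) ^ 2)⁻¹ := by
        rw [mul_one, Complex.cpow_neg]
        congr 1
        exact_mod_cast Complex.cpow_natCast (p : ℂ) 2
      rw [h1, h2]
      push_cast
      ring
    rw [e1]
    have h3 : 0 < 1 - A p / p + R / p ^ 2 := by
      have hpp : (0 : ℝ) < p := by linarith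
      have h4 := abs_lt.1 hA
      rcases hR with ⟨hR, -⟩ | ⟨hR, hA1⟩
      · have e2 : 1 - A p / p + R / p ^ 2 = (p + 1 - A p) / p := by
          rw [hR]
          field_simp
          ring
        rw [e2]
        exact div_pos (by linarith) hpp
      · have e2 : 1 - A p / p + R / p ^ 2 = (p - A p) / p := by
          rw [hR]
          field_simp
          ring
        rw [e2]
        have h5 := (abs_le.1 hA1).2
        exact div_pos (by linarith) hpp
    exact_mod_cast h3.ne'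
  refine ⟨fun s => E s * L s, ⟨hEd.mul hL.1, fun s hs => ?_⟩, ?_⟩
  · show E s * L s = _
    rw [hL.2 s hs, remove_series hp hrel (hS s hs)]
  · have h1 : AnalyticAt ℂ E 1 := hEd.analyticAt 1
    have h2 : AnalyticAt ℂ L 1 := hL.1.analyticAt 1
    have h3 : analyticOrderAt E 1 = 0 := h1.analyticOrderAt_eq_zero.2 hE1
    have h4 := analyticOrderAt_mul h1 h2
    have h5 : (fun s => E s * L s) = E * L := rfl
    rw [h5, h4, h3, zero_add]

/-- **all Euler factors at the primes dividing `B`** -/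
theorem remove_all {A : ℕ → ℝ} (h : LDr A) (hS : Sm A) {B : ℕ} (hB : B ≠ 0)
    (hA : ∀ p : ℕ, p.Prime → p ∣ B → |A p| < p + 1) {L : ℂ → ℂ} (hL : IsLr A L) :
    ∃ L' : ℂ → ℂ, IsLr (inc B A) L' ∧ analyticOrderAt L' 1 = analyticOrderAt L 1 := by
  classical
  have key : ∀ S : Finset ℕ, (∀ p ∈ S, p.Prime) → (∀ p ∈ S, |A p| < p + 1) →
      ∃ (A' : ℕ → ℝ) (L' : ℂ → ℂ), (∀ n, A' n = if ∃ p ∈ S, p ∣ n then 0 else A n) ∧ LDr A' ∧
        Sm A' ∧ IsLr A' L' ∧ analyticOrderAt L' 1 = analyticOrderAt L 1 := by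
    intro S
    induction S using Finset.induction_on with
    | empty =>
      intro _ _
      exact ⟨A, L, fun n => by simp, h, hS, hL, rfl⟩
    | insert q S hq ih =>
      intro h1 h2
      obtain ⟨A', L', hA', hLD', hS', hL', hord⟩ := ih
        (fun p hp => h1 p (Finset.mem_insert_of_mem hp))
        (fun p hp => h2 p (Finset.mem_insert_of_mem hp))
      have hqp : q.Prime := h1 q (Finset.mem_insert_self q S)
      have hq1 : |A' q| < q + 1 := by
        rw [hA']
        split_ifs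
        · rw [abs_zero]; positivity
        · exact h2 q (Finset.mem_insert_self q S)
      obtain ⟨L'', hL'', hord'⟩ := remove_one hLD' hS' hqp hq1 hL'
      refine ⟨incp q A', L'', fun n => ?_, LDr.incp hLD' hqp, hS'.incp q, hL'', by
        rw [hord', hord]⟩
      unfold incp
      rw [hA']
      by_cases h3 : q ∣ n
      · rw [if_pos h3, if_pos ⟨q, Finset.mem_insert_self q S, h3⟩]
      · rw [if_neg h3]
        congr 1
        apply propext
        constructor
        · rintro ⟨p, hp, hpn⟩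
          exact ⟨p, Finset.mem_insert_of_mem hp, hpn⟩
        · rintro ⟨p, hp, hpn⟩
          rcases Finset.mem_insert.1 hp with rfl | hp
          · exact absurd hpn h3
          · exact ⟨p, hp, hpn⟩
  obtain ⟨A', L', hA', -, -, hL', hord⟩ := key B.primeFactors
    (fun p hp => (Nat.mem_primeFactors.1 hp).1)
    (fun p hp => hA p (Nat.mem_primeFactors.1 hp).1 (Nat.mem_primeFactors.1 hp).2.1)
  have e : A' = inc B A := by
    funext n
    rw [hA']
    unfold inc
    by_cases hn : n.Coprime B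
    · rw [if_pos hn, if_neg]
      rintro ⟨p, hp, hpn⟩
      obtain ⟨hpp, hpB, -⟩ := Nat.mem_primeFactors.1 hp
      exact hpp.one_lt.ne' (Nat.eq_one_of_dvd_coprimes hn hpn hpB)
    · rw [if_neg hn, if_pos]
      obtain ⟨p, hpp, h1, h2⟩ := Nat.Prime.not_coprime_iff_dvd.1 hn
      exact ⟨p, Nat.mem_primeFactors.2 ⟨hpp, h2, hB⟩, h1⟩
  rw [e] at hL'
  exact ⟨L', hL', hord⟩

end T8
end P004N
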