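import Vale.Agent.P004N.H3.Sys

/-!
# P004N, module T8: from the squarefree parameters to the fundamental discriminants
-/

open Real MeasureTheory Set Filter
open scoped ENNReal Topology NumberTheorySymbols

namespace P004N
namespace T8

open P004 (IsFund Fam)
open P004.QN (sfk TwSign)
open Vale.Agent.P004H.H871 (kr Fd kr_odd kr_one_mod kr_zero kr_pm kr_mul kr_one)

/-! ### squarefree parts of products -/

lemma sqp_ne {n : ℤ} (hn : n ≠ 0) : sqp n ≠ 0 := (sqp_spec hn).1.ne_zero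

lemma sqp_mul_sqp {x y : ℤ} (hx : x ≠ 0) (hy : y ≠ 0) : sqp (x * sqp y) = sqp (x * y) := by
  obtain ⟨h1, s, h2, h3⟩ := sqp_spec hy
  refine sqp_congr (mul_ne_zero hx (sqp_ne hy)) (mul_ne_zero hx hy) h3 one_ne_zero ?_
  linear_combination -x * h2

lemma sqp_mul_self {x y : ℤ} (hx : x ≠ 0) (hy : y ≠ 0) : sqp (x * (x * y)) = sqp y := by
  refine sqp_congr (mul_ne_zero hx (mul_ne_zero hx hy)) hy one_ne_zero hx ?_
  ring

lemma sqp_le {n : ℤ} (hn : n ≠ 0) : |sqp n| ≤ |n| := by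
  obtain ⟨h1, s, h2, h3⟩ := sqp_spec hn
  have h4 : |n| = |sqp n| * |s| ^ 2 := by
    conv_lhs => rw [h2]
    rw [abs_mul, abs_pow]
  have h5 : 1 ≤ |s| := Int.one_le_abs h3
  have h6 : 0 ≤ |sqp n| := abs_nonneg _
  rw [h4]
  exact le_mul_of_one_le_right h6 (one_le_pow₀ h5)

/-! ### the rank in the family of the twists of the twist by `e` -/

/-- the rank of the twist by `e D` -/
noncomputable def rkE (Rk : ℤ → ℕ) (e D : ℤ) : ℕ := Rk (sqp (e * D))

/-- the parameter `m` with `sqp (d m) = sqp (e D)` -/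
noncomputable def mD (d e D : ℤ) : ℤ := sqp (d * (e * D))

lemma mD_spec {d e D : ℤ} (hd : d ≠ 0) (he : e ≠ 0) (hD : D ≠ 0) :
    sqp (d * mD d e D) = sqp (e * D) := by
  unfold mD
  rw [sqp_mul_sqp hd (mul_ne_zero hd (mul_ne_zero he hD)), sqp_mul_self hd (mul_ne_zero he hD)]

lemma mD_inj {d e D D' : ℤ} (hd : d ≠ 0) (he : e ≠ 0) (hD : Fd D) (hD' : Fd D')
    (h : mD d e D = mD d e D') : D = D' := by
  have h1 := mD_spec hd he hD.ne
  have h2 := mD_spec hd he hD'.ne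
  rw [h, h2] at h1
  have h3 : ∀ D : ℤ, D ≠ 0 → sqp D = sqp (e * sqp (e * D)) := by
    intro D hD0
    rw [sqp_mul_sqp he (mul_ne_zero he hD0), sqp_mul_self he hD0]
  have h4 : sqp D = sqp D' := by rw [h3 D hD.ne, h3 D' hD'.ne, h1]
  rw [← (sqp_fund hD).1, h4, (sqp_fund hD').1]

lemma mem_Fam {X : ℕ} {D : ℤ} : D ∈ Fam X ↔ D.natAbs ≤ X ∧ IsFund D := by
  classical
  unfold Fam
  rw [Finset.mem_filter, Finset.mem_Icc]
  constructor
  · rintro ⟨⟨h1, h2⟩, h3⟩
    exact ⟨by omega, h3⟩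
  · rintro ⟨h1, h3⟩
    exact ⟨⟨by omega, by omega⟩, h3⟩

lemma fd_of_fund {D : ℤ} (h : IsFund D) : Fd D := h.2

open scoped Classical in
/-- squarefree integers `|m| ≤ X` -/
noncomputable def sqI (X : ℕ) : Finset ℤ := (Finset.Icc (-(X : ℤ)) X).filter Squarefree

lemma mem_sqI {X : ℕ} {m : ℤ} : m ∈ sqI X ↔ m.natAbs ≤ X ∧ Squarefree m := by
  classical
  unfold sqI
  rw [Finset.mem_filter, Finset.mem_Icc]
  constructor
  · rintro ⟨⟨h1, h2⟩, h3⟩
    exact ⟨by omega, h3⟩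
  · rintro ⟨h1, h3⟩
    exact ⟨⟨by omega, by omega⟩, h3⟩

lemma mD_mem {d e D : ℤ} {X : ℕ} (hd : d ≠ 0) (he : e ≠ 0) (hD : D ∈ Fam X) :
    mD d e D ∈ sqI ((d * e).natAbs * X) := by
  obtain ⟨h1, h2⟩ := mem_Fam.1 hD
  have hD0 := (fd_of_fund h2).ne
  have hne := mul_ne_zero hd (mul_ne_zero he hD0)
  rw [mem_sqI]
  refine ⟨?_, (sqp_spec hne).1⟩
  have h3 := sqp_le hne
  rw [← mul_assoc, abs_mul, Int.abs_eq_natAbs, Int.abs_eq_natAbs, Int.abs_eq_natAbs] at h3
  have h4 : (mD d e D).natAbs ≤ (d * e).natAbs * D.natAbs := by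
    unfold mD
    rw [← mul_assoc]
    exact_mod_cast h3
  exact h4.trans (Nat.mul_le_mul_left _ h1)

/-- sums over the family are bounded by sums over the squarefree integers -/
lemma fam_sum_le {d e : ℤ} (hd : d ≠ 0) (he : e ≠ 0) (X : ℕ) (f : ℤ → ℝ) (hf : ∀ D, 0 ≤ f D) :
    ∑ D ∈ Fam X, f (sqp (e * D)) ≤ ∑ m ∈ sqI ((d * e).natAbs * X), f (sqp (d * m)) := by
  classical
  have h1 : ∑ D ∈ Fam X, f (sqp (e * D)) = ∑ m ∈ (Fam X).image (mD d e), f (sqp (d * m)) := by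
    rw [Finset.sum_image]
    · refine Finset.sum_congr rfl fun D hD => ?_
      rw [mD_spec hd he (fd_of_fund (mem_Fam.1 hD).2).ne]
    · intro D hD D' hD' h
      exact mD_inj hd he (fd_of_fund (mem_Fam.1 (Finset.mem_coe.1 hD)).2)
        (fd_of_fund (mem_Fam.1 (Finset.mem_coe.1 hD')).2) h
  rw [h1]
  refine Finset.sum_le_sum_of_subset_of_nonneg ?_ fun m _ _ => hf _
  intro m hm
  obtain ⟨D, hD, rfl⟩ := Finset.mem_image.1 hm
  exact mD_mem hd he hD

open scoped Classical in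
/-- counting in the family -/
lemma fam_card_le {d e : ℤ} (hd : d ≠ 0) (he : e ≠ 0) (X : ℕ) (P : ℤ → Prop) :
    (((Fam X).filter (fun D => P (sqp (e * D)))).card : ℝ) ≤
      (((sqI ((d * e).natAbs * X)).filter (fun m => P (sqp (d * m)))).card : ℝ) := by
  have h := fam_sum_le hd he X (fun s => if P s then 1 else 0) (fun D => by positivity)
  rw [Finset.sum_boole, Finset.sum_boole] at h
  exact h

/-! ### moments and tails -/

/-- all moments -/
theorem moms_of {Rk : ℤ → ℕ} {d : ℤ} (hd : d ≠ 0)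
    (h : ∀ k : ℕ, ∃ C : ℝ, 0 < C ∧ ∀ X : ℕ, 3 ≤ X →
      ∑ m ∈ (sqI X).filter (fun m => m ≠ 1), (Rk (sqp (d * m)) : ℝ) ^ k ≤ C * X)
    {e : ℤ} (he : e ≠ 0) : Moms (rkE Rk e) := by
  classical
  intro k
  obtain ⟨C, hC, hk⟩ := h k
  obtain ⟨c₀, hc₀, hcount⟩ := P004.pfCount
  have hde : 0 < (d * e).natAbs := Int.natAbs_pos.2 (mul_ne_zero hd he)
  set a₁ : ℝ := (Rk (sqp (d * 1)) : ℝ) ^ k with ha₁
  have ha₁0 : 0 ≤ a₁ := by positivity
  refine ⟨(C * (d * e).natAbs + a₁) / c₀, by positivity, fun X hX => ?_⟩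
  have hX1 : (1 : ℝ) ≤ X := by exact_mod_cast (by omega : 1 ≤ X)
  have hX' : 3 ≤ (d * e).natAbs * X := hX.trans (Nat.le_mul_of_pos_left X hde)
  have h1 := fam_sum_le hd he X (fun s => (Rk s : ℝ) ^ k) (fun D => by positivity)
  have h2 : ∑ m ∈ sqI ((d * e).natAbs * X), (Rk (sqp (d * m)) : ℝ) ^ k ≤
      ∑ m ∈ (sqI ((d * e).natAbs * X)).filter (fun m => m ≠ 1), (Rk (sqp (d * m)) : ℝ) ^ k +
        a₁ := by
    rw [← Finset.sum_filter_add_sum_filter_not (sqI ((d * e).natAbs * X)) (fun m => m ≠ 1)]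
    gcongr
    have h3 : (sqI ((d * e).natAbs * X)).filter (fun m => ¬ m ≠ 1) ⊆ {1} := by
      intro m hm
      rw [Finset.mem_filter] at hm
      rw [Finset.mem_singleton]
      exact not_not.1 hm.2
    refine (Finset.sum_le_sum_of_subset_of_nonneg h3 fun m _ _ => by positivity).trans ?_
    rw [Finset.sum_singleton]
  have h3 := hk _ hX'
  have h4 := hcount X hX
  push_cast at h3
  have h5 : ∑ D ∈ Fam X, (rkE Rk e D : ℝ) ^ k ≤ (C * (d * e).natAbs + a₁) * X := by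
    unfold rkE
    calc _ ≤ _ := h1
      _ ≤ _ := h2
      _ ≤ C * ((d * e).natAbs * X) + a₁ := by linarith
      _ ≤ C * ((d * e).natAbs * X) + a₁ * X := by
          have := le_mul_of_one_le_right ha₁0 hX1
          linarith
      _ = _ := by ring
  refine h5.trans ?_
  rw [div_mul_eq_mul_div, le_div_iff₀ hc₀]
  have h6 : 0 ≤ C * (d * e).natAbs + a₁ := by positivity
  calc (C * (d * e).natAbs + a₁) * X * c₀ = (C * (d * e).natAbs + a₁) * (c₀ * X) := by ring
    _ ≤ _ := mul_le_mul_of_nonneg_left h4 h6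

open scoped Classical in
/-- the tails -/
theorem tail_of {Rk : ℤ → ℕ} {d : ℤ} (hd : d ≠ 0)
    (h : ∃ c δ C : ℝ, 0 < c ∧ 0 < δ ∧ 0 < C ∧ ∀ X : ℕ, 3 ≤ X → ∀ z : ℝ, 0 ≤ z →
      (((sqI X).filter (fun m => m ≠ 1 ∧ z ≤ (Rk (sqp (d * m)) : ℝ))).card : ℝ) ≤
        C * X * Real.exp (-c * min z (Real.log X ^ δ)))
    {e : ℤ} (he : e ≠ 0) : Tail (rkE Rk e) := by
  obtain ⟨c, δ, C, hc, hδ, hC, hk⟩ := h
  obtain ⟨c₀, hc₀, hcount⟩ := P004.pfCount
  have hde : 0 < (d * e).natAbs := Int.natAbs_pos.2 (mul_ne_zero hd he)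
  have hde1 : (1 : ℝ) ≤ ((d * e).natAbs : ℝ) := by exact_mod_cast hde
  set a₁ : ℝ := (Rk (sqp (d * 1)) : ℝ) with ha₁
  have ha₁0 : 0 ≤ a₁ := by positivity
  refine ⟨c, δ, (C * (d * e).natAbs + Real.exp (c * a₁)) / c₀, hc, hδ, by positivity,
    fun X hX z hz => ?_⟩
  have hX1 : (1 : ℝ) ≤ X := by exact_mod_cast (by omega : 1 ≤ X)
  have hX0 : (0 : ℝ) < X := by linarith
  have hX' : 3 ≤ (d * e).natAbs * X := hX.trans (Nat.le_mul_of_pos_left X hde)
  have h1 := fam_card_le hd he X (fun s => z ≤ (Rk s : ℝ))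
  have hlog : Real.log X ≤ Real.log (((d * e).natAbs * X : ℕ) : ℝ) := by
    apply Real.log_le_log hX0
    push_cast
    exact le_mul_of_one_le_left hX0.le (by simpa using hde1)
  have hL0 : 0 ≤ Real.log X := Real.log_nonneg hX1
  set E := Real.exp (-c * min z (Real.log X ^ δ)) with hE
  have hE0 : 0 < E := Real.exp_pos _
  have h2 : (((sqI ((d * e).natAbs * X)).filter
      (fun m => z ≤ (Rk (sqp (d * m)) : ℝ))).card : ℝ) ≤
      (((sqI ((d * e).natAbs * X)).filter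
        (fun m => m ≠ 1 ∧ z ≤ (Rk (sqp (d * m)) : ℝ))).card : ℝ) + Real.exp (c * a₁) * E := by
    by_cases hz1 : z ≤ a₁
    · have h3 : (sqI ((d * e).natAbs * X)).filter (fun m => z ≤ (Rk (sqp (d * m)) : ℝ)) ⊆
          (sqI ((d * e).natAbs * X)).filter
            (fun m => m ≠ 1 ∧ z ≤ (Rk (sqp (d * m)) : ℝ)) ∪ {1} := by
        intro m hm
        rw [Finset.mem_filter] at hm
        rw [Finset.mem_union, Finset.mem_filter, Finset.mem_singleton]
        by_cases hm1 : m = 1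
        · exact Or.inr hm1
        · exact Or.inl ⟨hm.1, hm1, hm.2⟩
      have h4 := (Finset.card_le_card h3).trans (Finset.card_union_le _ _)
      rw [Finset.card_singleton] at h4
      have h5 : (1 : ℝ) ≤ Real.exp (c * a₁) * E := by
        rw [hE, ← Real.exp_add, Real.one_le_exp_iff]
        have h6 : min z (Real.log X ^ δ) ≤ a₁ := (min_le_left _ _).trans hz1
        nlinarith
      have h6 : (((sqI ((d * e).natAbs * X)).filter
          (fun m => z ≤ (Rk (sqp (d * m)) : ℝ))).card : ℝ) ≤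
          (((sqI ((d * e).natAbs * X)).filter
            (fun m => m ≠ 1 ∧ z ≤ (Rk (sqp (d * m)) : ℝ))).card : ℝ) + 1 := by exact_mod_cast h4
      linarith
    · have h3 : (sqI ((d * e).natAbs * X)).filter (fun m => z ≤ (Rk (sqp (d * m)) : ℝ)) ⊆
          (sqI ((d * e).natAbs * X)).filter
            (fun m => m ≠ 1 ∧ z ≤ (Rk (sqp (d * m)) : ℝ)) := by
        intro m hm
        rw [Finset.mem_filter] at hm ⊢
        refine ⟨hm.1, ?_, hm.2⟩
        rintro rfl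
        exact hz1 hm.2
      have h4 := Finset.card_le_card h3
      have h5 : (0 : ℝ) ≤ Real.exp (c * a₁) * E := by positivity
      have h6 : (((sqI ((d * e).natAbs * X)).filter
          (fun m => z ≤ (Rk (sqp (d * m)) : ℝ))).card : ℝ) ≤
          (((sqI ((d * e).natAbs * X)).filter
            (fun m => m ≠ 1 ∧ z ≤ (Rk (sqp (d * m)) : ℝ))).card : ℝ) := by exact_mod_cast h4
      linarith
  have h3 := hk _ hX' z hz
  have h4 := hcount X hX
  have h5 : Real.exp (-c * min z (Real.log (((d * e).natAbs * X : ℕ) : ℝ) ^ δ)) ≤ E := by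
    rw [hE]
    apply Real.exp_le_exp.2
    have h6 : min z (Real.log X ^ δ) ≤ min z (Real.log (((d * e).natAbs * X : ℕ) : ℝ) ^ δ) :=
      min_le_min_left _ (Real.rpow_le_rpow hL0 hlog hδ.le)
    nlinarith
  have h6 : (((Fam X).filter (fun D => z ≤ (rkE Rk e D : ℝ))).card : ℝ) ≤
      (C * (d * e).natAbs + Real.exp (c * a₁)) * X * E := by
    unfold rkE
    refine h1.trans (h2.trans ?_)
    have h7 : C * (((d * e).natAbs * X : ℕ) : ℝ) *
        Real.exp (-c * min z (Real.log (((d * e).natAbs * X : ℕ) : ℝ) ^ δ)) ≤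
        C * (((d * e).natAbs * X : ℕ) : ℝ) * E := by gcongr
    have h8 : Real.exp (c * a₁) * E ≤ Real.exp (c * a₁) * X * E := by
      have : Real.exp (c * a₁) * 1 ≤ Real.exp (c * a₁) * X := by gcongr
      nlinarith
    push_cast at h7 h3 ⊢
    nlinarith
  refine h6.trans ?_
  rw [div_mul_eq_mul_div, div_mul_eq_mul_div, le_div_iff₀ hc₀]
  have h7 : 0 ≤ C * (d * e).natAbs + Real.exp (c * a₁) := by positivity
  calc (C * (d * e).natAbs + Real.exp (c * a₁)) * X * E * c₀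
      = (C * (d * e).natAbs + Real.exp (c * a₁)) * (c₀ * X) * E := by ring
    _ ≤ (C * (d * e).natAbs + Real.exp (c * a₁)) * ((Fam X).card : ℝ) * E := by gcongr

/-! ### positive proportions -/

open scoped Classical in
/-- from a positive proportion in the class of `1` to a positive proportion of the family -/
theorem pos_of {Q : ℤ → Prop} {d : ℤ} {N₀ : ℕ} (hds : Squarefree d) (hd : d ∣ N₀) (h4 : 4 ∣ N₀)
    (hN₀ : 0 < N₀)
    (hcnt : ∀ N : ℕ, 0 < N → N₀ ∣ N → ∃ c : ℝ, 0 < c ∧ ∃ Y₀ : ℕ, ∀ Y : ℕ, Y₀ ≤ Y →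
      c * Y ≤ (((sqI Y).filter (fun m => m ≠ 1 ∧ m % (N : ℤ) = 1 ∧ Q (d * m))).card : ℝ))
    {e : ℤ} (he : e ≠ 0) : Pos (fun D => Q (sqp (e * D))) := by
  have hd0 := hds.ne_zero
  obtain ⟨hes, t, ht, ht0⟩ := sqp_spec (mul_ne_zero he hd0)
  set e' := sqp (e * d) with he'
  have he0 : e' ≠ 0 := hes.ne_zero
  set E₀ := Dm e' with hE₀
  obtain ⟨δ, u, hδ, hu0, hu⟩ : ∃ δ u : ℤ, E₀ = δ * e' ∧ u ≠ 0 ∧ δ = u ^ 2 := by
    rw [hE₀]
    unfold Dm
    split_ifs
    · exact ⟨1, 1, by ring, by norm_num, by norm_num⟩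
    · exact ⟨4, 2, by ring, by norm_num, by norm_num⟩
  have hδ0 : δ ≠ 0 := by rw [hu]; exact pow_ne_zero 2 hu0
  have hE₀0 : E₀ ≠ 0 := by rw [hδ]; exact mul_ne_zero hδ0 he0
  set N : ℕ := N₀ * e'.natAbs with hN
  have hN0 : 0 < N := Nat.mul_pos hN₀ (Int.natAbs_pos.2 he0)
  obtain ⟨c, hc, Y₀, hY⟩ := hcnt N hN0 (Dvd.intro _ rfl)
  set K := E₀.natAbs with hK
  have hK0 : 0 < K := Int.natAbs_pos.2 hE₀0
  refine ⟨c / (2 * K), by positivity, K * (Y₀ + 1), fun X hX => ?_⟩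
  set Y := X / K with hYdef
  have hYY₀ : Y₀ + 1 ≤ Y := by
    rw [hYdef, Nat.le_div_iff_mul_le hK0]
    linarith [Nat.mul_comm K (Y₀ + 1)]
  have hYX : K * Y ≤ X := Nat.mul_div_le X K
  have hXY : X < K * (Y + 1) := by
    have := Nat.lt_mul_div_succ X hK0
    simpa using this
  have h1 := hY Y (by omega)
  have h2 : c / (2 * K) * X ≤ c * Y := by
    have h3 : (X : ℝ) ≤ K * (Y + 1) := by exact_mod_cast hXY.le
    have h4 : (1 : ℝ) ≤ Y := by exact_mod_cast (by omega : 1 ≤ Y)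
    have h5 : (0 : ℝ) < K := by exact_mod_cast hK0
    rw [div_mul_eq_mul_div, div_le_iff₀ (by positivity)]
    have h6 : (X : ℝ) ≤ K * (2 * Y) := h3.trans (by gcongr; linarith)
    calc c * X ≤ c * (K * (2 * Y)) := by gcongr
      _ = _ := by ring
  refine h2.trans (h1.trans ?_)
  refine Nat.cast_le.2 (Finset.card_le_card_of_injOn (fun m => m * E₀) ?_ ?_)
  · intro m hm
    obtain ⟨g1, g3, g5, g6⟩ := Finset.mem_filter.1 (Finset.mem_coe.1 hm)
    obtain ⟨g1, g2⟩ := mem_sqI.1 g1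
    have hNm : (N : ℤ) ∣ m - 1 := Int.dvd_self_sub_of_emod_eq g5
    have hN₀m : (N₀ : ℤ) ∣ m - 1 := Dvd.dvd.trans (by rw [hN]; push_cast; exact Dvd.intro _ rfl) hNm
    have hem : e' ∣ m - 1 := by
      refine Dvd.dvd.trans ?_ hNm
      rw [hN]
      push_cast
      exact Dvd.dvd.mul_left ((dvd_abs e' e').2 dvd_rfl) _
    have hcopk : ∀ x : ℤ, x ∣ m - 1 → IsCoprime m x := by
      rintro x ⟨k, hk⟩
      exact ⟨1, -k, by linear_combination hk⟩
    have hcop : IsCoprime m e' := hcopk e' hem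
    have hcopd : IsCoprime m d := hcopk d (hd.trans hN₀m)
    have hme : Squarefree (m * e') := by
      rw [squarefree_mul_iff]
      exact ⟨hcop.isRelPrime, g2, hes⟩
    have hdm : Squarefree (d * m) := by
      rw [squarefree_mul_iff]
      exact ⟨hcopd.symm.isRelPrime, hds, g2⟩
    have hm4 : m % 4 = 1 := by
      have h7 : (4 : ℤ) ∣ m - 1 := Dvd.dvd.trans (by exact_mod_cast h4) hN₀m
      omega
    have hDm : Dm (m * e') = m * E₀ := by
      rw [hE₀]
      unfold Dm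
      have : (m * e') % 4 = e' % 4 := by
        rw [Int.mul_emod, hm4, one_mul, Int.emod_emod_of_dvd _ (dvd_refl 4)]
      rw [this]
      split_ifs <;> ring
    have hne : m * e' ≠ 1 := by
      intro h
      have h8 := Int.eq_one_or_neg_one_of_mul_eq_one h
      omega
    have hfd := isFund_Dm hme hne
    rw [hDm] at hfd
    change m * E₀ ∈ _
    rw [Finset.mem_coe, Finset.mem_filter, mem_Fam]
    have hm0 : m ≠ 0 := by omega
    refine ⟨⟨?_, hfd⟩, ?_⟩
    · have h9 : (m * E₀).natAbs ≤ X := by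
        rw [Int.natAbs_mul]
        calc m.natAbs * E₀.natAbs ≤ Y * K := Nat.mul_le_mul g1 le_rfl
          _ = K * Y := by ring
          _ ≤ X := hYX
      exact h9
    · have h10 : sqp (e * (m * E₀)) = d * m := by
        rw [← sqp_self hdm]
        refine sqp_congr (mul_ne_zero he (mul_ne_zero hm0 hE₀0)) (mul_ne_zero hd0 hm0)
          (u := t) (v := e * u) ht0 (mul_ne_zero he hu0) ?_
        rw [hδ, hu]
        linear_combination -(e * m * u ^ 2) * ht
      show Q (sqp (e * (m * E₀)))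
      rw [h10]
      exact g6
  · intro m _ m' _ h
    exact mul_right_cancel₀ hE₀0 h

end T8
end P004N
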