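import Vale.Agent.P004N.H3.Inp
import Vale.Agent.P004N.H65.Att
import Vale.Agent.P004N.H461.Pure
import Vale.Agent.P004N.H176.MertN
import Vale.Agent.P004N.H974.N1N
import Vale.Agent.P004N.H449.N0
import Vale.Agent.P004N.H880.FE1

/-!
# P004N, module T8: the theorems for the twists of an eigenform with integer coefficients, modulo
the library for the class `Crv` (structures `LibM`, `Lib1`, `Lib2`)
-/

open Real MeasureTheory Set Filter
open scoped ENNReal Topology NumberTheorySymbols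

namespace P004N
namespace T8

open P004 (IsFund Fam)
open P004G
open Vale.Agent.P004H.H871 (kr Fd kr_odd kr_one_mod kr_zero kr_pm kr_mul kr_one)

/-- continuation, rank bound, parity, vanishing moments -/
structure LibL : Prop where
  ent : StLent
  rank : StLrank
  par : StLparity
  van : ∀ [Crv], StVan1

/-- moments and tails -/
structure LibM : Prop where
  mom : ∀ [Crv], StTF → StMom
  tail : ∀ [Crv], StTF → ∀ a : ℤ → ℕ, (∀ m : ℤ, Squarefree m → m ≠ 1 → Van m (a m)) →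
    ∃ c δ C : ℝ, 0 < c ∧ 0 < δ ∧ 0 < C ∧ ∀ X : ℕ, 3 ≤ X → ∀ z : ℝ, 0 ≤ z →
      (((sqZ X).filter (fun m => m ≠ 1 ∧ z ≤ (a m : ℝ))).card : ℝ) ≤
        C * X * Real.exp (-c * min z (Real.log X ^ δ))

/-- positive proportions -/
def LibC (κ : ℝ) (r : ℕ) : Prop :=
  ∀ [Crv], StTF → P004E.StMert → P004E.StN0 → P004H.StN1w → Cnt κ r

/-! ### the system -/

variable {N : ℕ} {f : UpperHalfPlane → ℂ} {a : ℕ → ℤ}

/-- all data for the twists of `f` -/
structure Full (N : ℕ) (a : ℕ → ℤ) (B : ℕ) (η : ℝ) (M : ℕ) (g : UpperHalfPlane → ℂ) (b : ℕ → ℝ)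
    (ε : ℝ) : Prop where
  tws : TwS a B η (RkB a B)
  cfb : CfB a B
  dvd : N ∣ B
  mdvd : M ∣ B
  nf : NF M g b ε
  eq : ∀ n : ℕ, n.Coprime N → b n = a n
  pure : ∃ (d : ℤ) (A : ℕ → ℝ) (M' : ℕ) (ε' : ℝ), TwP a B η (RkB a B) d A M' ε'

theorem exists_full (h : EF N f a) :
    ∃ (B : ℕ) (η : ℝ) (M : ℕ) (g : UpperHalfPlane → ℂ) (b : ℕ → ℝ) (ε : ℝ),
      Full N a B η M g b ε := by
  obtain ⟨M₁, g₁, b₁, ε₁, h1, -, h3, h4, -⟩ := pfNewP N f a h 1 fd_one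
  have hb₁ : ∀ n : ℕ, n.Coprime N → b₁ n = a n := by
    intro n hn
    have := h3 n (by simpa using hn)
    rw [this, kr_one_left, Int.cast_one, mul_one]
  have hM₁ : M₁ ∣ N := by simpa using h4
  obtain ⟨M, g, b, ε, Q, eQ, g1, g2, g3, g4, g5, g6, g7⟩ := pfPure N f a h
  obtain ⟨B₀, hB₀, h2B₀, hNB₀, hsys⟩ := exists_sys pfNew H880.pfFE1 pfPowN H176.pfMertN
    (fun _ hA => H503.Sum.sm_of_ldr hA) h
  obtain ⟨hcf, hη⟩ := hsys B₀ hB₀ dvd_rfl
  obtain ⟨η, hT, hbd⟩ := hη {b} (by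
    intro b' hb'
    rw [Finset.mem_singleton] at hb'
    subst hb'
    refine ⟨M, g, ε, g1, fun p hp hpB => ?_⟩
    rw [g3 p ((Nat.Prime.coprime_iff_not_dvd hp).2 fun h5 => hpB (h5.trans hNB₀))])
  have hPD : PD N a M b Q eQ := ⟨g1.hr, g2, g3, fun p hp h2 => g1.bad2 p hp h2, g4, g5, g6, g7⟩
  refine ⟨B₀, η, M₁, g₁, b₁, ε₁, ⟨hT, hcf, hNB₀, hM₁.trans hNB₀, h1, hb₁, ?_⟩⟩
  exact exists_pure hPD hB₀ h2B₀ hNB₀ (hbd b (Finset.mem_singleton_self b))
    (fun p hp => g1.lt hp)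

/-- enlarging `B` by the primes dividing the discriminant changes nothing -/
lemma cf_enlarge {B : ℕ} (h2 : 2 ∣ B) {s : ℤ} :
    cf a (B * (Dm s).natAbs) s = cf a B s := by
  funext n
  unfold cf
  by_cases hn : n.Coprime B
  · rw [if_pos hn]
    split_ifs with h
    · rfl
    · have h3 : ¬ n.Coprime (Dm s).natAbs := fun h4 => h (Nat.Coprime.mul_right hn h4)
      obtain ⟨p, hp, h4, h5⟩ := Nat.Prime.not_coprime_iff_dvd.1 h3
      have hp2 : p ≠ 2 := by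
        rintro rfl
        exact hp.one_lt.ne' (Nat.eq_one_of_dvd_coprimes hn h4 h2)
      have h6 : (p : ℤ) ∣ 4 * s := by
        have h7 : (p : ℤ) ∣ Dm s := Int.natCast_dvd.2 h5
        unfold Dm at h7
        split_ifs at h7
        · exact h7.mul_left 4
        · exact h7
      have h8 : (p : ℤ) ∣ s := by
        rcases (Nat.prime_iff_prime_int.1 hp).dvd_or_dvd h6 with h9 | h9
        · exfalso
          have h10 : p ∣ 4 := by exact_mod_cast h9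
          have h11 : p ∣ 2 := hp.dvd_of_dvd_pow (n := 2) (by norm_num; exact h10)
          exact hp2 ((Nat.prime_dvd_prime_iff_eq hp Nat.prime_two).1 h11)
        · exact h9
      have h9 : jacobiSym s n = 0 := by
        rw [jacobiSym.eq_zero_iff]
        refine ⟨(cop_ne h2 hn).2, ?_⟩
        intro h10
        have h11 : (p : ℤ) ∣ (Int.gcd s n : ℕ) := Int.dvd_coe_gcd h8 (by exact_mod_cast h4)
        rw [h10] at h11
        exact hp.one_lt.ne' (Nat.dvd_one.1 (by exact_mod_cast h11))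
      rw [h9, mul_zero]
  · rw [if_neg hn, if_neg (fun h => hn (Nat.Coprime.coprime_mul_right_right h))]

/-- a newform has an entire `L`-function with finite order at `1` -/
theorem nf_lde {M : ℕ} {g : UpperHalfPlane → ℂ} {b : ℕ → ℝ} {ε : ℝ} (h : NF M g b ε) :
    ∃ η : ℝ, LDe η b := by
  classical
  obtain ⟨C, δ, hC, hδ, hbd⟩ := pfPowN M g b ε h
  obtain ⟨P, hP⟩ : ∃ P : ℕ, ∀ p : ℕ, P ≤ p → √C * (p : ℝ) ^ (-(δ / 2)) ≤ 1 := by
    have hlim : Tendsto (fun p : ℕ => √C * (p : ℝ) ^ (-(δ / 2))) atTop (𝓝 0) := by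
      have h5 := (tendsto_rpow_neg_atTop (y := δ / 2) (by linarith)).comp
        (tendsto_natCast_atTop_atTop (R := ℝ))
      have h6 := h5.const_mul (√C)
      rw [mul_zero] at h6
      exact h6
    obtain ⟨P, hP⟩ := eventually_atTop.1 (hlim.eventually_le_const one_pos)
    exact ⟨P, hP⟩
  obtain ⟨η, h0, h1, h2⟩ := exists_eta ((Finset.range P).filter Nat.Prime)
    (fun p => (p : ℝ) + 1 - |b p|) (fun p hp => by
      have := h.lt (Finset.mem_filter.1 hp).2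
      show (0 : ℝ) < p + 1 - |b p|
      linarith)
  refine ⟨η, h0, h.ldr, fun p hp => ?_⟩
  by_cases hpP : p < P
  · have := h2 p (Finset.mem_filter.2 ⟨Finset.mem_range.2 hpP, hp⟩)
    linarith
  · rw [not_lt] at hpP
    have hp0 : (0 : ℝ) < p := by exact_mod_cast hp.pos
    have h5 := hbd p hp.one_lt.le
    have h6 : |b p| ≤ √C * (p : ℝ) ^ (1 - δ / 2) := by
      rw [← Real.sqrt_sq_eq_abs]
      refine (Real.sqrt_le_sqrt h5).trans ?_
      rw [Real.sqrt_mul (by linarith)]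
      have e : √((p : ℝ) ^ (2 - δ)) = (p : ℝ) ^ (1 - δ / 2) := by
        rw [Real.sqrt_eq_rpow, ← Real.rpow_mul hp0.le]
        congr 1
        ring
      rw [e]
    have e2 : (p : ℝ) ^ (1 - δ / 2) = p * (p : ℝ) ^ (-(δ / 2)) := by
      nth_rewrite 2 [← Real.rpow_one (p : ℝ)]
      rw [← Real.rpow_add hp0]
      congr 1
    have h7 := hP p hpP
    rw [e2] at h6
    have h8 : √C * (p * (p : ℝ) ^ (-(δ / 2))) ≤ p * 1 := by
      calc √C * (p * (p : ℝ) ^ (-(δ / 2))) = p * (√C * (p : ℝ) ^ (-(δ / 2))) := by ring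
        _ ≤ p * 1 := by gcongr
    linarith

theorem nf_fe {M : ℕ} {g : UpperHalfPlane → ℂ} {b : ℕ → ℝ} {ε : ℝ} (h : NF M g b ε) :
    FEr b (M / 4) (-ε) := by
  have h1 := H880.pfFE1 M g b ε h 1 fd_one isCoprime_one_right
  have e : (fun k : ℕ => b k * ((kr 1 (k : ℤ) : ℤ) : ℝ)) = b := by
    funext k
    rw [kr_one_left]
    simp
  rw [e, kr_one_left] at h1
  simpa using h1

/-- the rank of the newform attached to the twist -/
theorem rk_isTw (h : EF N f a) {B : ℕ} (hB : B ≠ 0) (h2 : 2 ∣ B) (hN : N ∣ B) {D : ℤ} (hD : Fd D)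
    {M : ℕ} {g : UpperHalfPlane → ℂ} {b : ℕ → ℝ} {ε : ℝ} (hT : IsTw a D M g b ε) {L : ℂ → ℂ}
    (hL : IsLr b L) : rkE (RkB a B) 1 D = analyticOrderNatAt L 1 := by
  obtain ⟨hDm, hs0, -⟩ := sqp_fund hD
  have hs : Squarefree (sqp D) := (sqp_spec hD.ne).1
  set s := sqp D with hsdef
  obtain ⟨L', hL', hord⟩ := hT.order h hD hL (B := B * D.natAbs)
    (Nat.mul_ne_zero hB (Int.natAbs_ne_zero.2 hD.ne)) (Nat.mul_dvd_mul hN dvd_rfl)
  have e : (fun n : ℕ => if n.Coprime (B * D.natAbs) then (a n : ℝ) * ((kr D n : ℤ) : ℝ) else 0) =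
      fun n => ((cf a B s n : ℤ) : ℝ) := by
    rw [← cf_enlarge (s := s) h2, hDm]
    funext n
    unfold cf
    split_ifs with hn
    · have ho := (cop_ne h2 (Nat.Coprime.coprime_mul_right_right hn)).1
      rw [← hDm, kr_Dm hs ho]
      push_cast
      rfl
    · simp
  rw [e] at hL'
  unfold rkE RkB
  rw [one_mul, ordL_eq hL']
  unfold analyticOrderNatAt
  rw [hord]

/-- the statement on the `L`-functions of the twists -/
def Cont (a : ℕ → ℤ) (r : ℤ → ℕ) : Prop := ∀ D : ℤ, Fd D →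
  ∀ (M : ℕ) (g : UpperHalfPlane → ℂ) (b : ℕ → ℝ) (ε : ℝ), IsTw a D M g b ε →
    ∃ L : ℂ → ℂ, IsLr b L ∧ (∀ L', IsLr b L' → L' = L) ∧
      (∀ s : ℂ, 3 / 2 < s.re → LSeriesHasSum (fun n => (b n : ℂ)) s (L s)) ∧
      analyticOrderAt L 1 = (r D : ℕ∞)

theorem cont_of (hL : LibL) (h : EF N f a) {B : ℕ} (hB : B ≠ 0) (h2 : 2 ∣ B) (hN : N ∣ B) :
    Cont a (rkE (RkB a B) 1) := by
  intro D hD M g b ε hT
  obtain ⟨η, hLD⟩ := nf_lde hT.1
  have hFE := nf_fe hT.1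
  obtain ⟨L, hL1, hL2⟩ := hL.ent η b _ _ hLD.1 hLD.ld hFE
  obtain ⟨C, hC⟩ := H449.pfN0N M g b ε hT.1
  refine ⟨L, hL1, hL2, H503.Sum.hasSum_32 hL1 ⟨C, hC.2⟩ hT.1.zero, ?_⟩
  obtain ⟨C', -, hfin⟩ := hL.rank
  have h3 := (hfin η b _ _ L hLD.1 hLD.ld hFE hL1).1
  rw [rk_isTw h hB h2 hN hD hT hL1, Nat.cast_analyticOrderNatAt h3]

/-! ### the theorems -/

/-- **moments, tails, parity, equivalences** -/
theorem main_mom (hL : LibL) (hM : LibM) {B : ℕ} {η : ℝ} {M : ℕ} {g : UpperHalfPlane → ℂ}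
    {b : ℕ → ℝ} {ε : ℝ} (h : Full N a B η M g b ε) :
    Moms (rkE (RkB a B) 1) ∧ Tail (rkE (RkB a B) 1) ∧ OddH (rkE (RkB a B) 1) ∧
      ∀ k : ℕ, 1 ≤ k → Equi (rkE (RkB a B) 1) k := by
  have hSm : ∀ A, LDr A → Sm A := fun _ hA => H503.Sum.sm_of_ldr hA
  have hEnt := stEnt_of hL.ent
  have hRank := stRank_of hL.rank
  have hMoms := moms_all h.tws h.cfb hSm hEnt hRank hL.van hM.mom one_ne_zero
  have hOdd := oddH_all h.tws (parOK_of hEnt (stPari_of hL.par)) (e := 1) one_ne_zero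
  exact ⟨hMoms, tail_all h.tws h.cfb hSm hEnt hRank hL.van hM.tail one_ne_zero, hOdd,
    fun k hk => equi_of hMoms hOdd hk⟩

/-- **rank one** -/
theorem main_one (hL : LibL) (hC : LibC (-1) 2) {B : ℕ} {η : ℝ} {M : ℕ}
    {g : UpperHalfPlane → ℂ} {b : ℕ → ℝ} {ε : ℝ} (h : Full N a B η M g b ε) :
    Pos (fun D => rkE (RkB a B) 1 D = 1) := by
  obtain ⟨d, A, M', ε', hp⟩ := h.pure
  refine pos_one (pos_all h.tws h.cfb hp hL.ent hL.par (@LibL.van hL (crv h.tws h.cfb d hp.dvd))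
    (Or.inr rfl) (@hC (crv h.tws h.cfb d hp.dvd) (stTF' h.tws h.cfb hp.sqf hp.dvd)
      (inpMert h.tws h.cfb hp.dvd) (inpN0 H449.pfN0N h.nf h.dvd h.eq h.tws h.cfb hp.dvd)
      (inpN1 pfN1N h.nf h.dvd h.mdvd h.eq h.tws h.cfb hp.dvd)) one_ne_zero)

/-- **rank zero or two** -/
theorem main_two (hL : LibL) (hC : LibC 1 3) {B : ℕ} {η : ℝ} {M : ℕ}
    {g : UpperHalfPlane → ℂ} {b : ℕ → ℝ} {ε : ℝ} (h : Full N a B η M g b ε) :
    Pos (fun D => rkE (RkB a B) 1 D = 0 ∨ rkE (RkB a B) 1 D = 2) := by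
  obtain ⟨d, A, M', ε', hp⟩ := h.pure
  refine pos_two (pos_all h.tws h.cfb hp hL.ent hL.par (@LibL.van hL (crv h.tws h.cfb d hp.dvd))
    (Or.inl rfl) (@hC (crv h.tws h.cfb d hp.dvd) (stTF' h.tws h.cfb hp.sqf hp.dvd)
      (inpMert h.tws h.cfb hp.dvd) (inpN0 H449.pfN0N h.nf h.dvd h.eq h.tws h.cfb hp.dvd)
      (inpN1 pfN1N h.nf h.dvd h.mdvd h.eq h.tws h.cfb hp.dvd)) one_ne_zero)

end T8
end P004N
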