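import Vale.Agent.P004N.Defs
import Vale.Agent.P004.L3
import Vale.Agent.P004.H628.Equiv
import Vale.Agent.P004.H628.QW3

/-!
# P004N, module T8: the final statements for a general rank function on the fundamental
discriminants
-/

open Real MeasureTheory Set Filter
open scoped ENNReal Topology

namespace P004N
namespace T8

open P004 (IsFund Fam)
open P004.QN (sfk TwSign sum_Fam_sign)

theorem fam_pos {X : ℕ} (hX : 3 ≤ X) : 0 < (Fam X).card := by
  obtain ⟨c, hc, h⟩ := P004.pfCount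
  have h1 := h X hX
  have h2 : (3 : ℝ) ≤ X := by exact_mod_cast hX
  have h3 : (0 : ℝ) < ((Fam X).card : ℝ) := lt_of_lt_of_le (by positivity) h1
  exact_mod_cast h3

/-- all moments are bounded -/
def Moms (r : ℤ → ℕ) : Prop := ∀ k : ℕ, ∃ C : ℝ, 0 < C ∧ ∀ X : ℕ, 3 ≤ X →
    ∑ D ∈ Fam X, (r D : ℝ) ^ k ≤ C * ((Fam X).card : ℝ)

open scoped Classical in
/-- exponentially decreasing tails -/
def Tail (r : ℤ → ℕ) : Prop :=
  ∃ c δ C : ℝ, 0 < c ∧ 0 < δ ∧ 0 < C ∧ ∀ X : ℕ, 3 ≤ X → ∀ z : ℝ, 0 ≤ z →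
    (((Fam X).filter (fun D => z ≤ (r D : ℝ))).card : ℝ) ≤
      C * ((Fam X).card : ℝ) * Real.exp (-c * min z (Real.log X ^ δ))

open scoped Classical in
/-- odd for one half of the twists -/
def OddH (r : ℤ → ℕ) : Prop :=
  Tendsto (fun X : ℕ => (((Fam X).filter (fun D => Odd (r D))).card : ℝ) / (Fam X).card)
    atTop (𝓝 (1 / 2))

open scoped Classical in
/-- the density form of Goldfeld's conjecture -/
def Dens (r : ℤ → ℕ) : Prop :=
  ∀ j : ℕ, j ≤ 1 → Tendsto (fun X : ℕ =>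
    (((Fam X).filter (fun D => r D = j)).card : ℝ) / (Fam X).card) atTop (𝓝 (1 / 2))

/-- the mean form of Goldfeld's conjecture, for the `k`-th moment -/
def Mean (r : ℤ → ℕ) (k : ℕ) : Prop :=
  Tendsto (fun X : ℕ => (∑ D ∈ Fam X, (r D : ℝ) ^ k) / (Fam X).card) atTop (𝓝 (1 / 2))

open scoped Classical in
/-- the equivalences -/
def Equi (r : ℤ → ℕ) (k : ℕ) : Prop :=
  (Tendsto (fun X : ℕ => (((Fam X).filter (fun D => r D = 0)).card : ℝ) / (Fam X).card)
      atTop (𝓝 (1 / 2)) ↔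
    Tendsto (fun X : ℕ => (∑ D ∈ (Fam X).filter (fun D => Even (r D)),
      (r D : ℝ) ^ k) / (Fam X).card) atTop (𝓝 0)) ∧
  (Tendsto (fun X : ℕ => (((Fam X).filter (fun D => r D = 1)).card : ℝ) / (Fam X).card)
      atTop (𝓝 (1 / 2)) ↔
    Tendsto (fun X : ℕ => (∑ D ∈ (Fam X).filter (fun D => Odd (r D)),
      (r D : ℝ) ^ k) / (Fam X).card) atTop (𝓝 (1 / 2))) ∧
  (Dens r ↔ Mean r k)

open scoped Classical in
/-- a positive proportion -/
def Pos (P : ℤ → Prop) : Prop := ∃ c : ℝ, 0 < c ∧ ∃ X₀ : ℕ, ∀ X : ℕ, X₀ ≤ X →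
      c * X ≤ (((Fam X).filter P).card : ℝ)

theorem equi_of {r : ℤ → ℕ} (hM : Moms r) (hodd : OddH r) {k : ℕ} (hk : 1 ≤ k) : Equi r k := by
  classical
  have e1 : ∀ P : ℤ → Prop, P004.H628.frac P =
      fun X : ℕ => (((Fam X).filter P).card : ℝ) / (Fam X).card := by
    intro P
    funext X
    unfold P004.H628.frac
    congr!
  have e2 : ∀ (f : ℤ → ℝ) (P : ℤ → Prop), P004.H628.avg f P =
      fun X : ℕ => (∑ D ∈ (Fam X).filter P, f D) / (Fam X).card := by
    intro f P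
    funext X
    unfold P004.H628.avg
    congr!
  have hodd' : Tendsto (P004.H628.frac (fun D => Odd (r D))) atTop (𝓝 (1 / 2)) := by
    rw [e1]
    unfold OddH at hodd
    convert hodd
  obtain ⟨h0, h1, h2⟩ := P004.H628.equivs (a := r) hM (fun X hX => fam_pos hX) hodd' hk
  rw [e1, e2] at h0
  rw [e1, e2] at h1
  rw [e1, e1] at h2
  refine ⟨?_, ?_, ?_⟩
  · convert h0
  · convert h1
  · unfold Mean Dens
    rw [← h2]
    constructor
    · intro h
      exact ⟨by convert h 0 (by norm_num), by convert h 1 le_rfl⟩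
    · rintro ⟨ha, hb⟩ j hj
      rcases (by omega : j = 0 ∨ j = 1) with rfl | rfl
      · convert ha
      · convert hb

/-- **one half of the twists has odd rank** if the root number of the twist by `m` is `TwSign` -/
theorem oddH_of {r : ℤ → ℕ} {κ : ℤ → ℤ} {P : ℕ} (hP : 2 ∣ P) (hP0 : P ≠ 0) (h : TwSign κ P)
    (hodd : ∀ D, IsFund D → (Odd (r D) → κ (sfk D) = -1) ∧ (Even (r D) → κ (sfk D) = 1)) :
    OddH r := by
  classical
  obtain ⟨c, hc, hcount⟩ := P004.pfCount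
  obtain ⟨C, hC⟩ := sum_Fam_sign hP hP0 h
  set C' : ℝ := |(C : ℝ)| with hC'
  have hC0 : 0 ≤ C' := abs_nonneg _
  set fr : ℕ → ℝ := fun X : ℕ =>
    (((Fam X).filter (fun D => Odd (r D))).card : ℝ) / (Fam X).card with hfr
  have hkey : ∀ X : ℕ, 3 ≤ X → |fr X - 1 / 2| ≤ C' / c * (X : ℝ) ^ (-(1 / 2) : ℝ) := by
    intro X hX
    have hX3 : (3 : ℝ) ≤ X := by exact_mod_cast hX
    have hcnt := hcount X hX
    set N : ℝ := ((Fam X).card : ℝ) with hN
    have hN0 : 0 < N := lt_of_lt_of_le (by positivity) hcnt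
    have e1 : ((∑ D ∈ Fam X, κ (sfk D) : ℤ) : ℝ) = N - 2 * (((Fam X).filter
        (fun D => Odd (r D))).card : ℝ) := by
      have e2 : ∀ D ∈ Fam X, ((κ (sfk D) : ℤ) : ℝ) =
          1 - 2 * (if Odd (r D) then 1 else 0) := by
        intro D hD
        have hf : IsFund D := by
          unfold Fam at hD
          exact (Finset.mem_filter.1 hD).2
        rcases Nat.even_or_odd (r D) with h | h
        · rw [(hodd D hf).2 h, if_neg (Nat.not_odd_iff_even.2 h)]; norm_num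
        · rw [(hodd D hf).1 h, if_pos h]; norm_num
      push_cast
      rw [Finset.sum_congr rfl e2, Finset.sum_sub_distrib, ← Finset.mul_sum,
        Finset.sum_boole, Finset.sum_const, nsmul_eq_mul, mul_one]
    have e4 : |((∑ D ∈ Fam X, κ (sfk D) : ℤ) : ℝ)| ≤ C * (Nat.sqrt X : ℝ) + C := by
      exact_mod_cast hC X
    have e5 : (Nat.sqrt X : ℝ) ≤ √(X : ℝ) := Real.nat_sqrt_le_real_sqrt
    have e6 : (1 : ℝ) ≤ √(X : ℝ) := by rw [Real.one_le_sqrt]; linarith
    have e7 : fr X - 1 / 2 = -((∑ D ∈ Fam X, κ (sfk D) : ℤ) : ℝ) / (2 * N) := by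
      rw [hfr, e1]
      simp only
      rw [← hN]
      field_simp
      ring
    rw [e7, abs_div, abs_neg, abs_of_pos (by positivity : 0 < 2 * N), div_le_iff₀ (by positivity)]
    have e9 : √(X : ℝ) = X * (X : ℝ) ^ (-(1 / 2) : ℝ) := by
      rw [Real.sqrt_eq_rpow]
      nth_rewrite 2 [← Real.rpow_one (X : ℝ)]
      rw [← Real.rpow_add (by linarith)]
      norm_num
    have e10 : 0 < (X : ℝ) ^ (-(1 / 2) : ℝ) := Real.rpow_pos_of_pos (by linarith) _
    have e11 : (0 : ℝ) ≤ (Nat.sqrt X : ℝ) := Nat.cast_nonneg _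
    have e12 : (C : ℝ) ≤ C' := le_abs_self _
    calc |((∑ D ∈ Fam X, κ (sfk D) : ℤ) : ℝ)| ≤ C * (Nat.sqrt X : ℝ) + C := e4
      _ ≤ C' * (Nat.sqrt X : ℝ) + C' := by gcongr
      _ ≤ 2 * C' * √(X : ℝ) := by nlinarith
      _ = 2 * C' / c * (X : ℝ) ^ (-(1 / 2) : ℝ) * (c * X) := by rw [e9]; field_simp
      _ ≤ 2 * C' / c * (X : ℝ) ^ (-(1 / 2) : ℝ) * N := by gcongr
      _ = C' / c * (X : ℝ) ^ (-(1 / 2) : ℝ) * (2 * N) := by ring
  have hlim : Tendsto (fun X : ℕ => C' / c * (X : ℝ) ^ (-(1 / 2) : ℝ)) atTop (𝓝 0) := by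
    have h1 := (tendsto_rpow_neg_atTop (y := 1 / 2) (by norm_num)).comp
      (tendsto_natCast_atTop_atTop (R := ℝ))
    have h2 := h1.const_mul (C' / c)
    rw [mul_zero] at h2
    exact h2
  have hT : Tendsto fr atTop (𝓝 (1 / 2)) := by
    rw [tendsto_iff_norm_sub_tendsto_zero]
    refine tendsto_of_tendsto_of_tendsto_of_le_of_le' tendsto_const_nhds hlim ?_ ?_
    · filter_upwards with X using norm_nonneg _
    · filter_upwards [eventually_ge_atTop 3] with X hX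
      rw [Real.norm_eq_abs]
      exact hkey X hX
  unfold OddH
  convert hT

end T8
end P004N
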