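import Vale.Agent.P004N.H3.Mom
import Vale.Agent.P004X.P004H.H404.KW

/-!
# P004N, module T8: the Rankin-Selberg inputs of the library
-/

open Real MeasureTheory Set Filter
open scoped ENNReal Topology NumberTheorySymbols

namespace P004N
namespace T8

open P004G
open Vale.Agent.P004H.H871 (kr Fd)

variable {a : ℕ → ℤ} {B : ℕ} {η : ℝ} {Rk : ℤ → ℕ} {d : ℤ}

section

variable {N M : ℕ} {g : UpperHalfPlane → ℂ} {b : ℕ → ℝ} {ε : ℝ}

lemma ca_sq (h : TwS a B η Rk) (hb : CfB a B) (hd : d ∣ B) {n : ℕ} (hn : n.Coprime B) :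
    (@ca (crv h hb d hd) n : ℝ) ^ 2 = (a n : ℝ) ^ 2 := by
  change ((cf a B d n : ℤ) : ℝ) ^ 2 = _
  exact_mod_cast cf_sq hd hn

lemma ca_bad (h : TwS a B η Rk) (hb : CfB a B) (hd : d ∣ B) {n : ℕ} (hn : ¬ n.Coprime B) :
    (@ca (crv h hb d hd) n : ℝ) = 0 := by
  change ((cf a B d n : ℤ) : ℝ) = _
  rw [cf_bad hn, Int.cast_zero]

theorem inpN0 (hN0 : StN0N) (hnf : NF M g b ε) (hNB : N ∣ B)
    (hab : ∀ n : ℕ, n.Coprime N → b n = a n) (h : TwS a B η Rk) (hb : CfB a B) (hd : d ∣ B) :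
    @P004E.StN0 (crv h hb d hd) := by
  obtain ⟨C, hC, h1⟩ := hN0 M g b ε hnf
  refine ⟨C, hC, fun x hx => le_trans (Finset.sum_le_sum fun n _ => ?_) (h1 x hx)⟩
  by_cases hn : n.Coprime B
  · rw [ca_sq h hb hd hn, hab n (hn.coprime_dvd_right hNB)]
  · rw [ca_bad h hb hd hn, zero_pow two_ne_zero]
    exact sq_nonneg _

lemma lam_sq (h : TwS a B η Rk) (hb : CfB a B) (hd : d ∣ B) {p : ℕ} (hp : p.Prime)
    (hpB : ¬ p ∣ B) : (@lam (crv h hb d hd) p) ^ 2 = (a p : ℝ) ^ 2 / p := by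
  unfold lam
  rw [div_pow, ca_sq h hb hd ((Nat.Prime.coprime_iff_not_dvd hp).2 hpB),
    Real.sq_sqrt (by positivity)]

theorem inpN1 (hN1 : StN1N) (hnf : NF M g b ε) (hNB : N ∣ B) (hMB : M ∣ B)
    (hab : ∀ n : ℕ, n.Coprime N → b n = a n) (h : TwS a B η Rk) (hb : CfB a B) (hd : d ∣ B) :
    @P004H.StN1w (crv h hb d hd) := by
  obtain ⟨C, D, hC, h1⟩ := hN1 M g b ε hnf B h.ne hMB
  refine ⟨C, D, hC, fun x hx => ?_⟩
  refine le_trans (le_of_eq ?_) (h1 x hx)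
  congr 2
  refine Finset.sum_congr rfl fun n hn => ?_
  congr 1
  refine Finset.prod_congr rfl fun p hp => ?_
  have hnB : n.Coprime B := (Finset.mem_filter.1 hn).2.2
  have hpp := Nat.prime_of_mem_primeFactors hp
  have hpB : ¬ p ∣ B := fun h2 =>
    hpp.one_lt.ne' (Nat.eq_one_of_dvd_coprimes hnB (Nat.dvd_of_mem_primeFactors hp) h2)
  rw [lam_sq h hb hd hpp hpB, hab p (((Nat.Prime.coprime_iff_not_dvd hpp).2 hpB).coprime_dvd_right
    hNB)]

theorem inpMert (h : TwS a B η Rk) (hb : CfB a B) (hd : d ∣ B) :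
    @P004E.StMert (crv h hb d hd) := by
  obtain ⟨C, h1⟩ := hb.mert
  refine ⟨max C 1, le_max_right _ _, fun x hx => le_trans (le_of_eq ?_)
    ((h1 x hx).trans (le_max_left _ _))⟩
  congr 1
  unfold P004E.gp
  rw [Finset.sum_filter]
  refine Finset.sum_congr rfl fun p _ => ?_
  change (if p.Prime ∧ ¬ p ∣ B then _ else 0) = _
  split_ifs with h2
  · rw [lam_sq h hb hd h2.1 h2.2]
  · rfl

end

end T8
end P004N
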