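import Vale.Agent.P004N.H3.Fin
import Vale.Agent.P004X.P004G.All
import Vale.Agent.P004X.P004G.H175.Mom
import Vale.Agent.P004X.P004G.H175.Van
import Vale.Agent.P004X.P004G.H575.Ent
import Vale.Agent.P004X.P004G.H871.Rank
import Vale.Agent.P004X.P004.R2.H880.AllY

/-!
# P004N, module T8: the library results on continuation, moments and tails
-/

namespace P004N
namespace T8

theorem libL : LibL where
  ent := P004G.pfLent
  rank := P004G.pfLrank
  par := P004G.pfLparity
  van := fun {_} => P004G.pfVan1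

theorem libM : LibM where
  mom := fun {_} h => P004G.pfMom (P004G.block (P004G.pfZ1 h) (P004G.pfZ2 h))
  tail := fun {_} h => P004G.mainy h

/-- **continuation, moments, tails, parity, density form iff mean form** -/
theorem main_mom_all {N : ℕ} {f : UpperHalfPlane → ℂ} {a : ℕ → ℤ} (h : EF N f a) :
    ∃ r : ℤ → ℕ, Cont a r ∧ Moms r ∧ Tail r ∧ OddH r ∧ ∀ k : ℕ, 1 ≤ k → Equi r k := by
  obtain ⟨B, η, M, g, b, ε, hF⟩ := exists_full h
  exact ⟨rkE (RkB a B) 1, cont_of libL h hF.tws.ne hF.tws.two hF.dvd, main_mom libL libM hF⟩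

end T8
end P004N
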