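import Vale.Agent.P004N.H3.Lib
import Vale.Agent.P004X.P004H.H404.ModW
import Vale.Agent.P004X.P004E.H503.Good

/-!
# P004N, module T8: the library result on twists of rank one
-/

namespace P004N
namespace T8

open P004G

theorem libOne : LibC (-1) 2 := by
  intro _ hTF hM hN0 hN1 σ N q₀ hσ hN h8 hbd hq hfe
  obtain ⟨h1, h2, h3, h4, h5⟩ := P004H.modulesW hTF hM hN0 hN1 P004E.KT.pfHlam
  obtain ⟨c, hc, Y₀, h⟩ := P004E.Fin.good_count h1 h2 h3 h4 h5 hσ hN h8 hbd hq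
    (fun m hm hs hmN hm1 => hfe m hm hs hmN hm1)
  refine ⟨c, hc, Y₀, fun Y hY => ⟨P004E.Fin.TG σ N Y, h Y hY, fun m hm => ?_⟩⟩
  obtain ⟨hm1, hm2⟩ := P004E.Fin.mem_TG.1 hm
  unfold P004E.Cl at hm1
  rw [Finset.mem_filter, mem_sqZ] at hm1
  exact ⟨hm1.1.1, hm1.2.1, hm1.1.2, hm1.2.2.1, hm1.2.2.2, hm2⟩

/-- **all results except rank zero or two** -/
theorem main_one_all {N : ℕ} {f : UpperHalfPlane → ℂ} {a : ℕ → ℤ} (h : EF N f a) :
    ∃ r : ℤ → ℕ, Cont a r ∧ Moms r ∧ Tail r ∧ OddH r ∧ (∀ k : ℕ, 1 ≤ k → Equi r k) ∧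
      Pos (fun D => r D = 1) := by
  obtain ⟨B, η, M, g, b, ε, hF⟩ := exists_full h
  obtain ⟨h1, h2, h3, h4⟩ := main_mom libL libM hF
  exact ⟨rkE (RkB a B) 1, cont_of libL h hF.tws.ne hF.tws.two hF.dvd, h1, h2, h3, h4,
    main_one libL libOne hF⟩

end T8
end P004N
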