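import Vale.Agent.P004N.H3.Cnt

/-!
# P004N, module T8: moments and tails
-/

open Real MeasureTheory Set Filter
open scoped ENNReal Topology NumberTheorySymbols

namespace P004N
namespace T8

open P004 (IsFund Fam)
open P004G
open Vale.Agent.P004H.H871 (kr Fd kr_odd kr_one_mod kr_zero kr_pm kr_mul kr_one)

variable {a : ℕ → ℤ} {B : ℕ} {η : ℝ} {Rk : ℤ → ℕ}

/-- the rank away from `B` from any Euler product with the right coefficients away from `B` -/
theorem rkB_eq (hSm : ∀ A, LDr A → Sm A) (hB : B ≠ 0) {η : ℝ} {A : ℕ → ℝ} {L : ℂ → ℂ} {s : ℤ}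
    (hA : LDe η A) (hco : ∀ n : ℕ, n.Coprime B → A n = a n * jacobiSym s n) (hL : IsLr A L) :
    RkB a B s = analyticOrderNatAt L 1 := by
  obtain ⟨L', hL', hord⟩ := remove_all hA.2.1 (hSm _ hA.2.1) hB (fun p hp _ => by
    have := hA.2.2 p hp
    have := hA.1
    linarith) hL
  have e : inc B A = fun n => ((cf a B s n : ℤ) : ℝ) := by
    funext n
    unfold inc cf
    split_ifs with hn
    · rw [hco n hn]; push_cast; rfl
    · simp
  rw [e] at hL'
  unfold RkB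
  rw [ordL_eq hL']
  unfold analyticOrderNatAt
  rw [hord]

/-- the inputs of the moments method -/
theorem van_log (h : TwS a B η (RkB a B)) (hb : CfB a B) (hSm : ∀ A, LDr A → Sm A)
    (hEnt : StEnt) (hRank : StRank) (hVan : ∀ [Crv], StVan1) :
    (∀ m : ℤ, Squarefree m → @Van (crv h hb 1 (one_dvd _)) m (RkB a B m)) ∧
      ∃ C : ℝ, ∀ m : ℤ, Squarefree m → m ≠ 1 → (RkB a B m : ℝ) ≤ C * Real.log (3 * |(m : ℝ)|) := by
  let I : Crv := crv h hb 1 (one_dvd _)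
  obtain ⟨k₀, η', hk₀, hη', hT⟩ := stTF h hb squarefree_one (one_dvd (B : ℤ))
  have hca : ∀ n : ℕ, n.Coprime B → (ca n : ℝ) = a n := by
    intro n hn
    change ((cf a B 1 n : ℤ) : ℝ) = a n
    unfold cf
    rw [if_pos hn, jacobiSym.one_left, mul_one]
  refine ⟨fun m hm => ?_, ?_⟩
  · obtain ⟨A, q, κ, hA, hA', hF, hco, -, -⟩ := hT m hm
    have hLD : LDe η' A := ⟨hη', hA, hA'⟩
    obtain ⟨L, hL⟩ := hEnt η' A q κ hLD hF
    have hco' : ∀ n : ℕ, n.Coprime B → A n = a n * jacobiSym m n := by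
      intro n hn
      rw [hco n hn, hca n hn]
    rw [rkB_eq hSm h.ne hLD hco' hL]
    exact hVan m η' A q κ L hη' hLD.ld hF hL hco
  · obtain ⟨C, hC, hR⟩ := hRank η'
    set K : ℝ := Real.log (k₀ ^ 2 + 3) with hK
    have hk1 : (1 : ℝ) ≤ k₀ := by exact_mod_cast hk₀
    have hK0 : 0 ≤ K := Real.log_nonneg (by nlinarith)
    refine ⟨C * (K + 2), fun m hm _ => ?_⟩
    obtain ⟨A, q, κ, hA, hA', hF, hco, -, hq⟩ := hT m hm
    have hLD : LDe η' A := ⟨hη', hA, hA'⟩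
    obtain ⟨L, hL⟩ := hEnt η' A q κ hLD hF
    have hco' : ∀ n : ℕ, n.Coprime B → A n = a n * jacobiSym m n := by
      intro n hn
      rw [hco n hn, hca n hn]
    rw [rkB_eq hSm h.ne hLD hco' hL]
    refine (hR A q κ L hLD hF hL).2.trans ?_
    rw [mul_assoc]
    refine mul_le_mul_of_nonneg_left ?_ (by linarith)
    have hm1 : (1 : ℝ) ≤ |(m : ℝ)| := by
      have := Int.one_le_abs hm.ne_zero
      exact_mod_cast this
    have hq0 : 0 < q := hF.1
    have h1 : q ≤ (k₀ * |(m : ℝ)|) ^ 2 := by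
      rw [← Real.sq_sqrt hq0.le]
      exact pow_le_pow_left₀ (Real.sqrt_nonneg _) hq 2
    have h2 : 3 + q ≤ (k₀ ^ 2 + 3) * |(m : ℝ)| ^ 2 := by
      rw [mul_pow] at h1
      nlinarith
    have h3 : Real.log (3 + q) ≤ K + 2 * Real.log |(m : ℝ)| := by
      calc Real.log (3 + q) ≤ Real.log ((k₀ ^ 2 + 3) * |(m : ℝ)| ^ 2) :=
            Real.log_le_log (by linarith) h2
        _ = K + 2 * Real.log |(m : ℝ)| := by
            rw [Real.log_mul (by positivity) (by positivity), Real.log_pow]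
            norm_num
            rfl
    have h4 : Real.log (3 * |(m : ℝ)|) = Real.log 3 + Real.log |(m : ℝ)| :=
      Real.log_mul (by norm_num) (by positivity)
    have h5 : 1 ≤ Real.log 3 := by
      rw [Real.le_log_iff_exp_le (by norm_num)]
      linarith [Real.exp_one_lt_d9]
    have h6 : 0 ≤ Real.log |(m : ℝ)| := Real.log_nonneg hm1
    rw [h4]
    nlinarith

/-- all moments -/
theorem moms_all (h : TwS a B η (RkB a B)) (hb : CfB a B) (hSm : ∀ A, LDr A → Sm A)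
    (hEnt : StEnt) (hRank : StRank) (hVan : ∀ [Crv], StVan1) (hMom : ∀ [Crv], StTF → StMom)
    {e : ℤ} (he : e ≠ 0) : Moms (rkE (RkB a B) e) := by
  obtain ⟨h1, h2⟩ := van_log h hb hSm hEnt hRank hVan
  let I : Crv := crv h hb 1 (one_dvd _)
  have h3 := (hMom (stTF' h hb squarefree_one (one_dvd _)) (RkB a B) (fun m hm _ => h1 m hm) h2).2
  refine moms_of (d := 1) one_ne_zero (fun k => ?_) he
  obtain ⟨C, hC, h4⟩ := h3 k
  refine ⟨C, hC, fun X hX => ?_⟩
  refine le_trans (le_of_eq ?_) (h4 X hX)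
  unfold sqI sqZ
  refine Finset.sum_congr (by congr!) fun m hm => ?_
  have hm' : Squarefree m := by
    simp only [Finset.mem_filter] at hm
    exact hm.1.2
  rw [one_mul, sqp_self hm']

/-- exponential tails -/
theorem tail_all (h : TwS a B η (RkB a B)) (hb : CfB a B) (hSm : ∀ A, LDr A → Sm A)
    (hEnt : StEnt) (hRank : StRank) (hVan : ∀ [Crv], StVan1)
    (hMomy : ∀ [Crv], StTF → ∀ a : ℤ → ℕ, (∀ m : ℤ, Squarefree m → m ≠ 1 → Van m (a m)) →
      ∃ c δ C : ℝ, 0 < c ∧ 0 < δ ∧ 0 < C ∧ ∀ X : ℕ, 3 ≤ X → ∀ z : ℝ, 0 ≤ z →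
        (((sqZ X).filter (fun m => m ≠ 1 ∧ z ≤ (a m : ℝ))).card : ℝ) ≤
          C * X * Real.exp (-c * min z (Real.log X ^ δ)))
    {e : ℤ} (he : e ≠ 0) : Tail (rkE (RkB a B) e) := by
  obtain ⟨h1, -⟩ := van_log h hb hSm hEnt hRank hVan
  let I : Crv := crv h hb 1 (one_dvd _)
  obtain ⟨c, δ, C, hc, hδ, hC, h3⟩ := hMomy (stTF' h hb squarefree_one (one_dvd _)) (RkB a B)
    (fun m hm _ => h1 m hm)
  refine tail_of (d := 1) one_ne_zero ⟨c, δ, C, hc, hδ, hC, fun X hX z hz => ?_⟩ he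
  refine le_trans (le_of_eq ?_) (h3 X hX z hz)
  congr 2
  ext m
  simp only [Finset.mem_filter, mem_sqI, mem_sqZ]
  constructor
  · rintro ⟨⟨g1, g2⟩, g3, g4⟩
    rw [one_mul, sqp_self g2] at g4
    exact ⟨⟨g1, g2⟩, g3, g4⟩
  · rintro ⟨⟨g1, g2⟩, g3, g4⟩
    refine ⟨⟨g1, g2⟩, g3, ?_⟩
    rw [one_mul, sqp_self g2]
    exact g4

end T8
end P004N
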