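import Vale.Agent.P004N.H3.FamA

/-!
# P004N, module T8: the parity of the rank
-/

open Real MeasureTheory Set Filter
open scoped ENNReal Topology NumberTheorySymbols

namespace P004N
namespace T8

open P004 (IsFund Fam)
open P004.QN (sfk TwSign)
open Vale.Agent.P004H.H871 (kr Fd kr_odd kr_one_mod kr_zero kr_pm kr_mul kr_one)

variable {a : ℕ → ℤ} {B : ℕ} {η : ℝ} {Rk : ℤ → ℕ}

/-- the sign of the rank -/
def sg (Rk : ℤ → ℕ) (s : ℤ) : ℤ := if Even (Rk s) then 1 else -1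

/-- Euler products with a uniform bound (the class `LD η` of the fork) -/
def LDe (η : ℝ) (A : ℕ → ℝ) : Prop := 0 < η ∧ LDr A ∧ ∀ p : ℕ, p.Prime → |A p| ≤ p + 1 - η

/-- continuation -/
def StEnt : Prop := ∀ (η : ℝ) (A : ℕ → ℝ) (q κ : ℝ), LDe η A → FEr A q κ → ∃ L, IsLr A L

/-- the order of vanishing is `≪ log(3 + q)` -/
def StRank : Prop := ∀ η : ℝ, ∃ C : ℝ, 1 ≤ C ∧ ∀ (A : ℕ → ℝ) (q κ : ℝ) (L : ℂ → ℂ), LDe η A →
  FEr A q κ → IsLr A L →
  analyticOrderAt L 1 ≠ ⊤ ∧ (analyticOrderNatAt L 1 : ℝ) ≤ C * Real.log (3 + q)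

/-- parity -/
def StPari : Prop := ∀ (η : ℝ) (A : ℕ → ℝ) (q κ : ℝ) (L : ℂ → ℂ), LDe η A → FEr A q κ →
  IsLr A L → (κ = 1 ↔ Even (analyticOrderNatAt L 1))

/-- the parity of the order of vanishing is given by the root number -/
def ParOK (Rk : ℤ → ℕ) (B : ℕ) : Prop := ∀ (d : ℤ) (A : ℕ → ℝ) (a : ℕ → ℤ) (η : ℝ) (M : ℕ) (ε : ℝ),
  0 < η → TwD a B η Rk d A M ε → ∀ n : ℤ, Adm B n →
  ((sg Rk (d * n) : ℤ) : ℝ) = -(ε * (kr n (-(M : ℤ)) : ℤ))

lemma kr_abs_le {D : ℤ} (hD : Fd D) (k : ℤ) : |((kr D k : ℤ) : ℝ)| ≤ 1 := by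
  by_cases hc : IsCoprime D k
  · rcases kr_pm hD hc with h5 | h5 <;> rw [h5] <;> norm_num
  · rw [kr_zero hD hc]; norm_num

lemma Adm.fd {n : ℤ} (h : Adm B n) : Fd n := Or.inl ⟨h.2.1, h.1⟩

lemma TwD.lde {d : ℤ} {A : ℕ → ℝ} {M : ℕ} {ε : ℝ} (h : TwD a B η Rk d A M ε) (hη : 0 < η) {n : ℤ}
    (hn : Adm B n) : LDe η (twr A n) := by
  refine ⟨hη, h.ld n hn, fun p hp => le_trans ?_ (h.et p hp)⟩
  unfold twr
  rw [abs_mul]
  exact mul_le_of_le_one_right (abs_nonneg _) (kr_abs_le hn.fd _)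

theorem parOK_of (hEnt : StEnt) (hPar : StPari) : ParOK Rk B := by
  intro d A a η M ε hη hT n hn
  have hLD := hT.lde hη hn
  have hFE := hT.fe n hn
  obtain ⟨L, hL⟩ := hEnt η _ _ _ hLD hFE
  have h1 := hPar η _ _ _ L hLD hFE hL
  rw [← hT.rk n hn L hL] at h1
  unfold sg
  rcases hFE.2.1 with h2 | h2
  · rw [if_pos (h1.1 h2), h2, Int.cast_one]
  · have h3 : ¬ Even (Rk (d * n)) := by
      intro h3
      have h4 := h1.2 h3
      rw [h2] at h4
      norm_num at h4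
    rw [if_neg h3, h2]
    norm_num

lemma adm_mul {n n' : ℤ} (h : Adm B n) (h' : Squarefree n' ∧ n' % 4 = 1 ∧ n'.natAbs.Coprime B)
    (hc : IsCoprime n n') : Adm B (n * n') := by
  refine ⟨?_, ?_, ?_⟩
  · rw [squarefree_mul_iff]
    exact ⟨hc.isRelPrime, h.1, h'.1⟩
  · rw [Int.mul_emod, h.2.1, h'.2.1]; norm_num
  · rw [Int.natAbs_mul]
    exact Nat.Coprime.mul_left h.2.2 h'.2.2

/-- the sign in the family of the twists of the twist by `e` -/
theorem twSign_of (h : TwS a B η Rk) (hpar : ParOK Rk B) {e : ℤ} (he : e ≠ 0) :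
    TwSign (fun m => sg Rk (sqp (e * m))) (B * e.natAbs) := by
  intro e' he' he'P
  have he'0 : e' ≠ 0 := he'.ne_zero
  obtain ⟨hs, t, ht, ht0⟩ := sqp_spec (mul_ne_zero he he'0)
  set s := sqp (e * e') with hsdef
  obtain ⟨d, n₁, hdn, hds, hdB, hn₁⟩ := decomp h.two hs
  obtain ⟨A, M, ε, hT⟩ := h.all d hds hdB
  obtain ⟨ε', hε', hε'1⟩ : ∃ ε' : ℤ, (ε : ℝ) = ε' ∧ |ε'| ≤ 1 := by
    rcases hT.eps with h1 | h1
    · exact ⟨1, by rw [h1]; norm_num, by norm_num⟩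
    · exact ⟨-1, by rw [h1]; norm_num, by norm_num⟩
  have hj1 : |J((M : ℤ) | n₁.natAbs)| ≤ 1 := by
    rcases jacobiSym.trichotomy (M : ℤ) n₁.natAbs with h1 | h1 | h1 <;> rw [h1] <;> norm_num
  have hn₁0 : n₁ ≠ 0 := hn₁.1.ne_zero
  have hsg1 : |n₁.sign| ≤ 1 := by
    rcases lt_trichotomy n₁ 0 with h1 | h1 | h1
    · rw [Int.sign_eq_neg_one_of_neg h1]; norm_num
    · exact absurd h1 hn₁0
    · rw [Int.sign_eq_one_of_pos h1]; norm_num
  refine ⟨-(ε' * (n₁.sign * J((M : ℤ) | n₁.natAbs))), M, ?_, hT.mpos.ne', fun n hn hn4 hnc => ?_⟩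
  · rw [abs_neg, abs_mul, abs_mul]
    have h2 : |n₁.sign| * |J((M : ℤ) | n₁.natAbs)| ≤ 1 * 1 :=
      mul_le_mul hsg1 hj1 (abs_nonneg _) (by norm_num)
    calc |ε'| * (|n₁.sign| * |J((M : ℤ) | n₁.natAbs)|) ≤ 1 * (1 * 1) :=
          mul_le_mul hε'1 h2 (by positivity) (by norm_num)
      _ = 1 := by norm_num
  · have hn0 : n ≠ 0 := hn.ne_zero
    have hP : IsCoprime n ((B : ℤ) * e) := by
      rw [Int.isCoprime_iff_gcd_eq_one, Int.gcd_eq_natAbs, Int.natAbs_mul, Int.natAbs_natCast]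
      exact hnc
    have hnB : n.natAbs.Coprime B := hnc.coprime_dvd_right (Dvd.intro _ rfl)
    have hne' : IsCoprime n e' := by
      refine hP.of_isCoprime_of_dvd_right ?_
      have h6 : e' ∣ (B : ℤ) * |e| := by
        have : ((B * e.natAbs : ℕ) : ℤ) = B * |e| := by
          push_cast
          rfl
        rw [this] at he'P
        exact he'P
      rcases abs_choice e with h7 | h7 <;> rw [h7] at h6
      · exact h6
      · rw [mul_neg, dvd_neg] at h6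
        exact h6
    have hne : IsCoprime n e := hP.of_isCoprime_of_dvd_right (Dvd.intro_left _ rfl)
    have hns : IsCoprime n s := by
      refine (hne.mul_right hne').of_isCoprime_of_dvd_right ?_
      exact ⟨t ^ 2, ht⟩
    have hsn : Squarefree (s * n) := by
      rw [squarefree_mul_iff]
      exact ⟨hns.symm.isRelPrime, hs, hn⟩
    have e1 : sqp (e * (e' * n)) = s * n := by
      rw [← sqp_self hsn]
      refine sqp_congr (mul_ne_zero he (mul_ne_zero he'0 hn0)) hsn.ne_zero one_ne_zero ht0 ?_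
      linear_combination n * ht
    have hnn₁ : IsCoprime n₁ n := by
      refine (hns.of_isCoprime_of_dvd_right ?_).symm
      rw [hdn]
      exact Dvd.intro_left _ rfl
    have hadm : Adm B (n₁ * n) := adm_mul hn₁ ⟨hn, hn4, hnB⟩ hnn₁
    have e2 : s * n = d * (n₁ * n) := by rw [hdn]; ring
    have h3 := hpar d A a η M ε h.eta hT (n₁ * n) hadm
    simp only
    rw [e1, e2]
    have h4 : ((sg Rk (d * (n₁ * n)) : ℤ) : ℝ) =
        ((-(ε' * (n₁.sign * J((M : ℤ) | n₁.natAbs))) * (n.sign * J((M : ℤ) | n.natAbs)) : ℤ) :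
          ℝ) := by
      rw [h3, kr_neg hadm.2.1, Int.sign_mul, Int.natAbs_mul, hε']
      have hm1 : NeZero n₁.natAbs := ⟨Int.natAbs_ne_zero.2 hn₁0⟩
      have hm2 : NeZero n.natAbs := ⟨Int.natAbs_ne_zero.2 hn0⟩
      rw [jacobiSym.mul_right]
      push_cast
      ring
    exact_mod_cast h4

lemma sqp_sfk {e D : ℤ} (he : e ≠ 0) (hD : IsFund D) : sqp (e * sfk D) = sqp (e * D) := by
  have hD0 : D ≠ 0 := (fd_of_fund hD).ne
  unfold sfk
  split_ifs with h4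
  · obtain ⟨k, hk⟩ : ∃ k, D = 4 * k := ⟨D / 4, by omega⟩
    have hk0 : k ≠ 0 := by rintro rfl; exact hD0 (by rw [hk]; ring)
    have e1 : D / 4 = k := by omega
    rw [e1]
    refine sqp_congr (mul_ne_zero he hk0) (mul_ne_zero he hD0) (u := 2) (v := 1) (by norm_num)
      one_ne_zero ?_
    rw [hk]; ring
  · rfl

/-- **one half of the twists has odd rank** -/
theorem oddH_all (h : TwS a B η Rk) (hpar : ParOK Rk B) {e : ℤ} (he : e ≠ 0) :
    OddH (rkE Rk e) := by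
  refine oddH_of (κ := fun m => sg Rk (sqp (e * m))) (P := B * e.natAbs)
    (Dvd.dvd.mul_right h.two _) (Nat.mul_ne_zero h.ne (Int.natAbs_ne_zero.2 he))
    (twSign_of h hpar he) ?_
  intro D hD
  show (Odd (rkE Rk e D) → sg Rk (sqp (e * sfk D)) = -1) ∧
    (Even (rkE Rk e D) → sg Rk (sqp (e * sfk D)) = 1)
  rw [sqp_sfk he hD]
  unfold sg rkE
  refine ⟨fun ho => ?_, fun hev => ?_⟩
  · rw [if_neg (Nat.not_even_iff_odd.2 ho)]
  · rw [if_pos hev]

end T8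
end P004N
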