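import Vale.Agent.P004N.H3.Cls
import Vale.Agent.P004N.H3.Euler
import Vale.Agent.P004N.H3.Par

/-!
# P004N, module T8: the data of the twists of an eigenform with integer coefficients
-/

open Real MeasureTheory Set Filter
open scoped ENNReal Topology NumberTheorySymbols

namespace P004N
namespace T8

open UpperHalfPlane (coe_mk)
open Vale.Agent.P004H.H871 (kr Fd kr_odd kr_one_mod kr_four kr_eight kr_eight' kr_zero kr_pm kr_mul
  kr_one)

/-! ### Kronecker symbols -/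

lemma fd_one : Fd 1 := Or.inl ⟨by norm_num, squarefree_one⟩

lemma kr_one_left (n : ℤ) : kr 1 n = 1 := by
  rw [kr_one_mod (by norm_num)]
  simp

/-- multiplicativity in the discriminant -/
lemma kr_disc {D n : ℤ} (hD : Fd D) (hn : n % 4 = 1) (hn0 : n ≠ 0) (x : ℤ) :
    kr (D * n) x = kr D x * kr n x := by
  have hN : NeZero n.natAbs := ⟨Int.natAbs_ne_zero.2 hn0⟩
  rw [kr_one_mod hn]
  show kr (D * n) x = kr D x * jacobiSym x n.natAbs
  rcases hD.cases with ⟨h1, h2⟩ | ⟨d, rfl, h1, h2⟩ | ⟨d, rfl, h1, h2⟩ | ⟨d, rfl, h1, h2⟩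
  · have hD0 : NeZero D.natAbs := ⟨Int.natAbs_ne_zero.2 h2.ne_zero⟩
    have h3 : (D * n) % 4 = 1 := by rw [Int.mul_emod, h1, hn]; norm_num
    rw [kr_one_mod h3, kr_one_mod h1]
    show jacobiSym x (D * n).natAbs = _
    rw [Int.natAbs_mul, jacobiSym.mul_right]
  · have hD0 : NeZero d.natAbs := ⟨Int.natAbs_ne_zero.2 (by omega)⟩
    have h3 : (d * n) % 4 = 3 := by rw [Int.mul_emod, h1, hn]; norm_num
    rw [mul_assoc, kr_four h3, kr_four h1]
    show _ * jacobiSym x (d * n).natAbs = _ * jacobiSym x d.natAbs * _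
    rw [Int.natAbs_mul, jacobiSym.mul_right, mul_assoc]
  · have hD0 : NeZero d.natAbs := ⟨Int.natAbs_ne_zero.2 (by omega)⟩
    have h3 : (d * n) % 4 = 1 := by rw [Int.mul_emod, h1, hn]; norm_num
    rw [mul_assoc, kr_eight h3, kr_eight h1]
    show _ * jacobiSym x (d * n).natAbs = _ * jacobiSym x d.natAbs * _
    rw [Int.natAbs_mul, jacobiSym.mul_right, mul_assoc]
  · have hD0 : NeZero d.natAbs := ⟨Int.natAbs_ne_zero.2 (by omega)⟩
    have h3 : (d * n) % 4 = 3 := by rw [Int.mul_emod, h1, hn]; norm_num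
    rw [mul_assoc, kr_eight' h3, kr_eight' h1]
    show _ * jacobiSym x (d * n).natAbs = _ * jacobiSym x d.natAbs * _
    rw [Int.natAbs_mul, jacobiSym.mul_right, mul_assoc]

/-! ### the rank away from `B` -/

theorem isLr_unique {A : ℕ → ℝ} {L L' : ℂ → ℂ} (h : IsLr A L) (h' : IsLr A L') : L = L' := by
  have h1 : AnalyticOnNhd ℂ L Set.univ := fun z _ => h.1.analyticAt z
  have h2 : AnalyticOnNhd ℂ L' Set.univ := fun z _ => h'.1.analyticAt z
  have h3 : L =ᶠ[𝓝 (3 : ℂ)] L' := by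
    have h4 : {s : ℂ | 2 < s.re} ∈ 𝓝 (3 : ℂ) :=
      (isOpen_lt continuous_const Complex.continuous_re).mem_nhds (by
        show (2 : ℝ) < (3 : ℂ).re
        norm_num)
    filter_upwards [h4] with s hs
    rw [h.2 s hs, h'.2 s hs]
  exact funext fun z => h1.eqOn_of_preconnected_of_eventuallyEq h2 isPreconnected_univ
    (Set.mem_univ _) h3 (Set.mem_univ z)

open scoped Classical in
/-- the order of vanishing at `1` of the entire continuation (`0` if there is none) -/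
noncomputable def ordL (A : ℕ → ℝ) : ℕ :=
  if h : ∃ L, IsLr A L then analyticOrderNatAt h.choose 1 else 0

theorem ordL_eq {A : ℕ → ℝ} {L : ℂ → ℂ} (h : IsLr A L) : ordL A = analyticOrderNatAt L 1 := by
  have hex : ∃ L, IsLr A L := ⟨L, h⟩
  unfold ordL
  rw [dif_pos hex, isLr_unique hex.choose_spec h]

/-- the order of the twist by `s` away from `B` -/
noncomputable def RkB (a : ℕ → ℤ) (B : ℕ) (s : ℤ) : ℕ := ordL (fun n => (cf a B s n : ℝ))

lemma exists_eta {ι : Type*} (S : Finset ι) (f : ι → ℝ) (h : ∀ i ∈ S, 0 < f i) :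
    ∃ η : ℝ, 0 < η ∧ η ≤ 1 ∧ ∀ i ∈ S, η ≤ f i := by
  classical
  induction S using Finset.induction_on with
  | empty => exact ⟨1, one_pos, le_rfl, fun i hi => absurd hi (Finset.notMem_empty i)⟩
  | insert j S hj ih =>
    obtain ⟨η, h1, h2, h3⟩ := ih fun i hi => h i (Finset.mem_insert_of_mem hi)
    refine ⟨min η (f j), lt_min h1 (h j (Finset.mem_insert_self j S)), (min_le_left _ _).trans h2,
      fun i hi => ?_⟩
    rcases Finset.mem_insert.1 hi with rfl | hi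
    · exact min_le_right _ _
    · exact (min_le_left _ _).trans (h3 i hi)

lemma dm_dvd {d : ℤ} {B : ℕ} {p : ℕ} (hp : p.Prime) (h2 : 2 ∣ B) (hd : d ∣ B)
    (h : p ∣ (Dm d).natAbs) : p ∣ B := by
  have h1 : (p : ℤ) ∣ Dm d := Int.natCast_dvd.2 h
  unfold Dm at h1
  have h3 : (p : ℤ) ∣ 4 * d := by
    split_ifs at h1
    · exact h1.mul_left 4
    · exact h1
  rcases (Nat.prime_iff_prime_int.1 hp).dvd_or_dvd h3 with h4 | h4
  · have h5 : p ∣ 4 := by exact_mod_cast h4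
    have h6 : p ∣ 2 := hp.dvd_of_dvd_pow (n := 2) (by norm_num; exact h5)
    exact h6.trans h2
  · exact_mod_cast h4.trans hd

/-! ### the system of the twists -/

/-- the family of newforms attached to the twists by `d ∣ B` -/
structure Att (a : ℕ → ℤ) (B : ℕ) (d : ℤ) (b : ℕ → ℝ) (M : ℕ) (g : UpperHalfPlane → ℂ) (ε : ℝ) :
    Prop where
  nf : NF M g b ε
  cop : ∀ p : ℕ, p.Prime → p ∣ M → p ∣ B
  eq : ∀ k : ℕ, k.Coprime B → b k = a k * kr (Dm d) k

lemma cop_of_primes {B m k : ℕ} (h : ∀ p : ℕ, p.Prime → p ∣ m → p ∣ B) (hk : k.Coprime B) :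
    k.Coprime m := by
  by_contra h1
  obtain ⟨p, hp, h2, h3⟩ := Nat.Prime.not_coprime_iff_dvd.1 h1
  exact hp.one_lt.ne' (Nat.eq_one_of_dvd_coprimes hk h2 (h p hp h3))

lemma exists_att (hNew : StNew) {N : ℕ} {f : UpperHalfPlane → ℂ} {a : ℕ → ℤ} (h : EF N f a)
    {B : ℕ} (h2 : 2 ∣ B) (hN : N ∣ B) {d : ℤ} (hds : Squarefree d) (hd : d ∣ B) :
    ∃ b M g ε, Att a B d b M g ε := by
  obtain ⟨M, g, b, ε, h1, h3, h4⟩ := hNew N f a h (Dm d) (fd_Dm hds)
  have hpr : ∀ p : ℕ, p.Prime → p ∣ N * (Dm d).natAbs → p ∣ B := by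
    intro p hp h5
    rcases (Nat.Prime.dvd_mul hp).1 h5 with h6 | h6
    · exact h6.trans hN
    · exact dm_dvd hp h2 hd h6
  exact ⟨b, M, g, ε, h1, fun p hp h5 => hpr p hp (h3 p hp h5), fun k hk =>
    h4 k (cop_of_primes hpr hk)⟩

lemma Att.inc_eq {a : ℕ → ℤ} {B : ℕ} {d : ℤ} {b : ℕ → ℝ} {M : ℕ} {g : UpperHalfPlane → ℂ} {ε : ℝ}
    (h : Att a B d b M g ε) (h2 : 2 ∣ B) (hds : Squarefree d) {n : ℤ} (hn : Adm B n) :
    inc B (twr b n) = fun k => ((cf a B (d * n) k : ℤ) : ℝ) := by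
  funext k
  unfold inc cf twr
  split_ifs with hk
  · have ho := (cop_ne h2 hk).1
    rw [h.eq k hk, kr_Dm hds ho, kr_four_one hn.1 hn.2.1 ho, jacobiSym.mul_left]
    push_cast
    ring
  · simp

theorem Att.twD {a : ℕ → ℤ} {B : ℕ} {d : ℤ} {b : ℕ → ℝ} {M : ℕ} {g : UpperHalfPlane → ℂ} {ε : ℝ}
    (h : Att a B d b M g ε) (hFE : StFE1) (hPow : StPowN) (hSm : ∀ A, LDr A → Sm A)
    (h2 : 2 ∣ B) (hB : B ≠ 0) (hds : Squarefree d) {η : ℝ}
    (hη : ∀ p : ℕ, p.Prime → |b p| ≤ p + 1 - η) : TwD a B η (RkB a B) d b M ε where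
  mpos := h.nf.pos
  eps := h.nf.sgn
  co := h.eq
  ld n hn := h.nf.hr.ldr (fun p hp => h.nf.hr.triv (hPow M g b ε h.nf) hp) hn.fd
  et := hη
  fe n hn := by
    have hc : IsCoprime (M : ℤ) n := by
      rw [Int.isCoprime_iff_gcd_eq_one, Int.gcd_eq_natAbs, Int.natAbs_natCast]
      exact (cop_of_primes h.cop hn.2.2).symm
    exact hFE M g b ε h.nf n hn.fd hc
  rk n hn L hL := by
    have hld := h.nf.hr.ldr (fun p hp => h.nf.hr.triv (hPow M g b ε h.nf) hp) hn.fd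
    have htr : ∀ p : ℕ, p.Prime → p ∣ B → |twr b n p| < p + 1 := by
      intro p hp _
      refine lt_of_le_of_lt ?_ (h.nf.hr.triv (hPow M g b ε h.nf) hp)
      unfold twr
      rw [abs_mul]
      exact mul_le_of_le_one_right (abs_nonneg _) (kr_abs_le hn.fd _)
    obtain ⟨L', hL', hord⟩ := remove_all (A := twr b n) hld (hSm _ hld) hB htr hL
    rw [h.inc_eq h2 hds hn] at hL'
    unfold RkB
    rw [ordL_eq hL']
    unfold analyticOrderNatAt
    rw [hord]

/-- **the system of the twists of an eigenform** -/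
theorem exists_sys (hNew : StNew) (hFE : StFE1) (hPow : StPowN) (hMert : StMertN)
    (hSm : ∀ A, LDr A → Sm A) {N : ℕ} {f : UpperHalfPlane → ℂ} {a : ℕ → ℤ} (h : EF N f a) :
    ∃ B₀ : ℕ, B₀ ≠ 0 ∧ 2 ∣ B₀ ∧ N ∣ B₀ ∧ ∀ B : ℕ, B ≠ 0 → B₀ ∣ B → CfB a B ∧
      ∀ K : Finset (ℕ → ℝ), (∀ b ∈ K, ∃ (M : ℕ) (g : UpperHalfPlane → ℂ) (ε : ℝ), NF M g b ε ∧
          ∀ p : ℕ, p.Prime → ¬ p ∣ B → |b p| = |(a p : ℝ)|) →
        ∃ η : ℝ, TwS a B η (RkB a B) ∧ ∀ b ∈ K, ∀ p : ℕ, p.Prime → |b p| ≤ p + 1 - η := by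
  classical
  obtain ⟨M₁, g₁, b₁, ε₁, h1, h3, h4⟩ := hNew N f a h 1 fd_one
  have hb₁ : ∀ n : ℕ, n.Coprime N → b₁ n = a n := by
    intro n hn
    have := h4 n (by simpa using hn)
    rw [this, kr_one_left, Int.cast_one, mul_one]
  have hM₁ : ∀ p : ℕ, p.Prime → p ∣ M₁ → p ∣ N := by
    intro p hp h5
    simpa using h3 p hp h5
  obtain ⟨C, δ, hC, hδ, hbd⟩ := hPow M₁ g₁ b₁ ε₁ h1
  -- the bound for large primes
  obtain ⟨P, hP4, hP⟩ : ∃ P : ℕ, 10000 ≤ P ∧ ∀ p : ℕ, P ≤ p → 100 * √C * (p : ℝ) ^ (-(δ / 4)) ≤ 1 := by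
    have hlim : Tendsto (fun p : ℕ => 100 * √C * (p : ℝ) ^ (-(δ / 4))) atTop (𝓝 0) := by
      have h5 := (tendsto_rpow_neg_atTop (y := δ / 4) (by linarith)).comp
        (tendsto_natCast_atTop_atTop (R := ℝ))
      have h6 := h5.const_mul (100 * √C)
      rw [mul_zero] at h6
      exact h6
    obtain ⟨P, hP⟩ := eventually_atTop.1 (hlim.eventually_le_const one_pos)
    exact ⟨max P 10000, le_max_right _ _, fun p hp => hP p ((le_max_left _ _).trans hp)⟩
  refine ⟨2 * N * P.factorial, Nat.mul_ne_zero (Nat.mul_ne_zero two_ne_zero h.pos.ne')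
    P.factorial_ne_zero, ⟨N * P.factorial, by ring⟩, ⟨2 * P.factorial, by ring⟩,
    fun B hB0 hB => ?_⟩
  have hNB : N ∣ B := Dvd.dvd.trans ⟨2 * P.factorial, by ring⟩ hB
  have h2B : 2 ∣ B := Dvd.dvd.trans ⟨N * P.factorial, by ring⟩ hB
  have hPB : ∀ p : ℕ, p.Prime → ¬ p ∣ B → P < p := by
    intro p hp hpB
    by_contra h5
    rw [not_lt] at h5
    exact hpB ((Dvd.dvd.mul_left ((Nat.Prime.dvd_factorial hp).2 h5) _).trans hB)
  have hgood : ∀ p : ℕ, p.Prime → ¬ p ∣ B → p.Coprime N := fun p hp hpB =>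
    (Nat.Prime.coprime_iff_not_dvd hp).2 fun h5 => hpB (h5.trans hNB)
  have hap : ∀ p : ℕ, p.Prime → ¬ p ∣ B → |(a p : ℝ)| ≤ (p : ℝ) ^ (1 - δ / 4) / 100 := by
    intro p hp hpB
    have hp0 : (0 : ℝ) < p := by exact_mod_cast hp.pos
    rw [← hb₁ p (hgood p hp hpB)]
    have h5 := hbd p hp.one_lt.le
    have h6 : |b₁ p| ≤ √C * (p : ℝ) ^ (1 - δ / 2) := by
      rw [← Real.sqrt_sq_eq_abs]
      refine (Real.sqrt_le_sqrt h5).trans ?_
      rw [Real.sqrt_mul (by linarith)]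
      have e : √((p : ℝ) ^ (2 - δ)) = (p : ℝ) ^ (1 - δ / 2) := by
        rw [Real.sqrt_eq_rpow, ← Real.rpow_mul hp0.le]
        congr 1
        ring
      rw [e]
    refine h6.trans ?_
    have e2 : (p : ℝ) ^ (1 - δ / 2) = (p : ℝ) ^ (1 - δ / 4) * (p : ℝ) ^ (-(δ / 4)) := by
      rw [← Real.rpow_add hp0]
      congr 1
      ring
    rw [e2]
    have h7 := hP p (hPB p hp hpB).le
    have h8 : 0 ≤ (p : ℝ) ^ (1 - δ / 4) := by positivity
    calc √C * ((p : ℝ) ^ (1 - δ / 4) * (p : ℝ) ^ (-(δ / 4)))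
        = (p : ℝ) ^ (1 - δ / 4) * (100 * √C * (p : ℝ) ^ (-(δ / 4))) / 100 := by ring
      _ ≤ (p : ℝ) ^ (1 - δ / 4) * 1 / 100 := by gcongr
      _ = _ := by ring
  refine ⟨⟨fun p hp hpB => hP4.trans (hPB p hp hpB).le, ⟨δ / 4, by linarith, hap⟩, ?_⟩,
    fun K hK => ?_⟩
  · -- Mertens
    obtain ⟨C₁, hC₁, hm⟩ := hMert M₁ g₁ b₁ ε₁ h1
    set F : ℕ → ℝ := fun p => ((b₁ p) ^ 2 / p - 1) * Real.log p / p with hF
    refine ⟨C₁ + ∑ p ∈ B.primeFactors, |F p|, fun x hx => ?_⟩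
    have h5 := hm x hx
    rw [Finset.sum_filter] at h5
    have h6 : |∑ p ∈ Finset.range (⌊x⌋₊ + 1),
        ((if p.Prime ∧ ¬ p ∣ B then ((a p : ℝ) ^ 2 / p - 1) * Real.log p / p else 0) -
          (if p.Prime ∧ ¬ p ∣ M₁ then F p else 0))| ≤ ∑ p ∈ B.primeFactors, |F p| := by
      refine (Finset.abs_sum_le_sum_abs _ _).trans ?_
      have h7 : ∀ p ∈ Finset.range (⌊x⌋₊ + 1),
          |(if p.Prime ∧ ¬ p ∣ B then ((a p : ℝ) ^ 2 / p - 1) * Real.log p / p else 0) -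
          (if p.Prime ∧ ¬ p ∣ M₁ then F p else 0)| ≤
          if p ∈ B.primeFactors then |F p| else 0 := by
        intro p _
        by_cases hp : p.Prime
        · by_cases hpB : p ∣ B
          · rw [if_neg (fun h8 => h8.2 hpB), if_pos (Nat.mem_primeFactors.2 ⟨hp, hpB, hB0⟩),
              zero_sub, abs_neg]
            split_ifs
            · exact le_rfl
            · rw [abs_zero]; exact abs_nonneg _
          · have hpM : ¬ p ∣ M₁ := fun h8 => hpB ((hM₁ p hp h8).trans hNB)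
            rw [if_pos ⟨hp, hpB⟩, if_pos ⟨hp, hpM⟩,
              if_neg (fun h8 => hpB (Nat.dvd_of_mem_primeFactors h8)), hF]
            simp only
            rw [hb₁ p (hgood p hp hpB), sub_self, abs_zero]
        · rw [if_neg (fun h8 => hp h8.1), if_neg (fun h8 => hp h8.1),
            if_neg (fun h8 => hp (Nat.prime_of_mem_primeFactors h8)), sub_self, abs_zero]
      refine (Finset.sum_le_sum h7).trans ?_
      rw [← Finset.sum_filter]
      refine Finset.sum_le_sum_of_subset_of_nonneg ?_ fun p _ _ => abs_nonneg _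
      intro p hp
      exact (Finset.mem_filter.1 hp).2
    rw [Finset.sum_sub_distrib] at h6
    have h7 := abs_sub_abs_le_abs_sub
      (∑ p ∈ Finset.range (⌊x⌋₊ + 1),
        (if p.Prime ∧ ¬ p ∣ B then ((a p : ℝ) ^ 2 / p - 1) * Real.log p / p else 0))
      (∑ p ∈ Finset.range (⌊x⌋₊ + 1), (if p.Prime ∧ ¬ p ∣ M₁ then F p else 0))
    linarith
  · -- the system
    choose! bf Mf gf εf hA using
      fun (d : ℤ) (hd : Squarefree d ∧ d ∣ (B : ℤ)) => exists_att hNew h h2B hNB hd.1 hd.2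
    set S : Finset ℤ := (Finset.Icc (-(B : ℤ)) B).filter (fun d => Squarefree d ∧ d ∣ B) with hS
    have hB0' : (0 : ℤ) < B := by exact_mod_cast Nat.pos_of_ne_zero hB0
    have hmem : ∀ d : ℤ, Squarefree d → d ∣ B → d ∈ S := by
      intro d h5 h6
      rw [hS, Finset.mem_filter, Finset.mem_Icc]
      exact ⟨abs_le.1 (Int.le_of_dvd hB0' ((abs_dvd _ _).2 h6)), h5, h6⟩
    obtain ⟨η, hη0, hη1, hη⟩ := exists_eta ((K ∪ S.image bf) ×ˢ B.primeFactors)
      (fun x => (x.2 : ℝ) + 1 - |x.1 x.2|) (by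
        rintro ⟨b, p⟩ hx
        obtain ⟨hx1, hx2⟩ := Finset.mem_product.1 hx
        have hp := Nat.prime_of_mem_primeFactors hx2
        show (0 : ℝ) < p + 1 - |b p|
        rcases Finset.mem_union.1 hx1 with hx1 | hx1
        · obtain ⟨M, g, ε, hnf, -⟩ := hK b hx1
          have := hnf.hr.triv (hPow M g b ε hnf) hp
          linarith
        · obtain ⟨d, hd, rfl⟩ := Finset.mem_image.1 hx1
          have hd' := (Finset.mem_filter.1 hd).2
          have hAd := hA d hd'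
          have := hAd.nf.hr.triv (hPow _ _ _ _ hAd.nf) hp
          linarith)
    have hle : ∀ b ∈ K ∪ S.image bf, ∀ p : ℕ, p.Prime → |b p| ≤ p + 1 - η := by
      intro b hb p hp
      have hp1 : (1 : ℝ) ≤ p := by exact_mod_cast hp.one_lt.le
      by_cases hpB : p ∣ B
      · have := hη (b, p) (Finset.mem_product.2 ⟨hb, Nat.mem_primeFactors.2 ⟨hp, hpB, hB0⟩⟩)
        simp only at this
        linarith
      · have h5 : |b p| ≤ |(a p : ℝ)| := by
          rcases Finset.mem_union.1 hb with hx1 | hx1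
          · obtain ⟨M, g, ε, hnf, he⟩ := hK b hx1
            exact (he p hp hpB).le
          · obtain ⟨d, hd, rfl⟩ := Finset.mem_image.1 hx1
            have hd' := (Finset.mem_filter.1 hd).2
            have hAd := hA d hd'
            rw [hAd.eq p ((Nat.Prime.coprime_iff_not_dvd hp).2 hpB), abs_mul]
            exact mul_le_of_le_one_right (abs_nonneg _) (kr_abs_le (fd_Dm hd'.1) _)
        refine (h5.trans (hap p hp hpB)).trans ?_
        have h6 : (p : ℝ) ^ (1 - δ / 4) ≤ (p : ℝ) ^ (1 : ℝ) :=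
          Real.rpow_le_rpow_of_exponent_le hp1 (by linarith)
        rw [Real.rpow_one] at h6
        linarith
    refine ⟨η, ⟨hB0, h2B, hη0, h.one, ?_, ?_, ?_⟩, fun b hb =>
      hle b (Finset.mem_union_left _ hb)⟩
    · intro m n hm hn hmn
      have e1 := h1.hr.mul m n hmn
      have hm' : m.Coprime N := hm.coprime_dvd_right hNB
      have hn' : n.Coprime N := hn.coprime_dvd_right hNB
      rw [hb₁ _ (Nat.Coprime.mul_left hm' hn'), hb₁ _ hm', hb₁ _ hn'] at e1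
      exact_mod_cast e1
    · intro p k hp hpB
      have hpN := hgood p hp hpB
      have hpM : ¬ p ∣ M₁ := fun h8 => hpB ((hM₁ p hp h8).trans hNB)
      have e1 := h1.hr.hecke hp hpM k
      rw [hb₁ _ (hpN.pow_left _), hb₁ _ hpN, hb₁ _ (hpN.pow_left _), hb₁ _ (hpN.pow_left _)] at e1
      exact_mod_cast e1
    · intro d hds hd
      exact ⟨bf d, Mf d, εf d, (hA d ⟨hds, hd⟩).twD hFE hPow hSm h2B hB0 hds
        (hle _ (Finset.mem_union_right _ (Finset.mem_image_of_mem _ (hmem d hds hd))))⟩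

end T8
end P004N
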