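import Vale.Agent.P004N.DefsL

/-!
# P004N, module T8: newforms give Euler products
-/

open Real

namespace P004N
namespace T8

open UpperHalfPlane
open Vale.Agent.P004H.H871 (kr Fd kr_zero kr_pm kr_mul kr_one)

/-- a sequence with the Hecke relations of level `M` -/
structure HR (M : ℕ) (b : ℕ → ℝ) : Prop where
  pos : 0 < M
  zero : b 0 = 0
  one : b 1 = 1
  good : ∀ p : ℕ, p.Prime → ¬ p ∣ M → ∀ n : ℕ,
    b (p * n) + (if p ∣ n then (p : ℝ) * b (n / p) else 0) = b p * b n
  bad : ∀ p : ℕ, p.Prime → p ∣ M → ∀ n : ℕ, b (p * n) = b p * b n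
  bad1 : ∀ p : ℕ, p.Prime → p ∣ M → |b p| ≤ 1

lemma _root_.P004N.NF.hr {M : ℕ} {g : ℍ → ℂ} {b : ℕ → ℝ} {ε : ℝ} (h : NF M g b ε) : HR M b where
  pos := h.pos
  zero := h.zero
  one := h.one
  good := h.good
  bad := h.bad
  bad1 p hp hpM := by
    by_cases h2 : p ^ 2 ∣ M
    · rw [h.bad2 p hp h2, abs_zero]; norm_num
    · have := h.bad1 p hp hpM h2
      rw [← sq_abs] at this
      have h3 := abs_nonneg (b p)
      nlinarith

variable {M : ℕ} {b : ℕ → ℝ}

/-- multiplicativity -/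
theorem HR.mul (h : HR M b) (m n : ℕ) (hmn : m.Coprime n) : b (m * n) = b m * b n := by
  induction m using Nat.strong_induction_on generalizing n with
  | _ m ih =>
  rcases Nat.eq_zero_or_pos m with rfl | hm
  · rw [Nat.coprime_zero_left] at hmn
    subst hmn
    rw [zero_mul, h.zero, zero_mul]
  by_cases hm1 : m = 1
  · subst hm1
    rw [one_mul, h.one, one_mul]
  obtain ⟨p, hp, k, rfl⟩ : ∃ p : ℕ, p.Prime ∧ ∃ k, m = p * k := by
    obtain ⟨p, hp, hpd⟩ := Nat.exists_prime_and_dvd hm1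
    exact ⟨p, hp, hpd⟩
  have hk : 0 < k := Nat.pos_of_mul_pos_left hm |> fun h => by
    rcases Nat.eq_zero_or_pos k with rfl | h'
    · simp at hm
    · exact h'
  have hklt : k < p * k := by
    have := hp.two_le
    nlinarith
  have hcp : p.Coprime n := Nat.Coprime.coprime_mul_right hmn
  have hck : k.Coprime n := Nat.Coprime.coprime_mul_left hmn
  have hpn : ¬ p ∣ n := (Nat.Prime.coprime_iff_not_dvd hp).1 hcp
  by_cases hpM : p ∣ M
  · rw [mul_assoc, h.bad p hp hpM, ih k hklt n hck, h.bad p hp hpM]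
    ring
  · have h1 := h.good p hp hpM (k * n)
    have h2 := h.good p hp hpM k
    have h3 := ih k hklt n hck
    by_cases hpk : p ∣ k
    · obtain ⟨j, rfl⟩ := hpk
      have hj : 0 < j := by
        rcases Nat.eq_zero_or_pos j with rfl | h'
        · simp at hk
        · exact h'
      have e1 : p * j * n / p = j * n := by
        rw [mul_assoc, Nat.mul_div_cancel_left _ hp.pos]
      have e2 : p * j / p = j := Nat.mul_div_cancel_left _ hp.pos
      rw [if_pos (Dvd.dvd.mul_right (Dvd.intro _ rfl) n), e1] at h1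
      rw [if_pos (Dvd.intro _ rfl), e2] at h2
      have hjlt : j < p * (p * j) := by
        have := hp.two_le
        nlinarith [Nat.mul_pos hp.pos hj]
      have h4 := ih j hjlt n (Nat.Coprime.coprime_mul_left hck)
      rw [h4, h3] at h1
      rw [mul_assoc p (p * j) n]
      linear_combination h1 - b n * h2
    · have hpkn : ¬ p ∣ k * n := by
        intro h5
        rcases (Nat.Prime.dvd_mul hp).1 h5 with h6 | h6
        · exact hpk h6
        · exact hpn h6
      rw [if_neg hpkn, h3] at h1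
      rw [if_neg hpk] at h2
      rw [mul_assoc p k n]
      linear_combination h1 - b n * h2

theorem HR.hecke (h : HR M b) {p : ℕ} (hp : p.Prime) (hpM : ¬ p ∣ M) (k : ℕ) :
    b (p ^ (k + 2)) = b p * b (p ^ (k + 1)) - p * b (p ^ k) := by
  have h1 := h.good p hp hpM (p ^ (k + 1))
  rw [if_pos (dvd_pow_self p (Nat.succ_ne_zero k)), pow_succ p k,
    Nat.mul_div_cancel _ hp.pos] at h1
  have e : p ^ (k + 2) = p * (p ^ k * p) := by ring
  rw [e, pow_succ p k]
  linarith

theorem HR.badp (h : HR M b) {p : ℕ} (hp : p.Prime) (hpM : p ∣ M) (k : ℕ) :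
    b (p ^ (k + 1)) = b p * b (p ^ k) := by
  rw [pow_succ', h.bad p hp hpM]

/-- the trivial bound, from a saving over `n` -/
theorem HR.triv (h : HR M b) (hpow : ∃ C δ : ℝ, 1 ≤ C ∧ 0 < δ ∧ ∀ n : ℕ, 1 ≤ n →
    (b n) ^ 2 ≤ C * (n : ℝ) ^ (2 - δ)) {p : ℕ} (hp : p.Prime) : |b p| < p + 1 := by
  have hp2 : (2 : ℝ) ≤ p := by exact_mod_cast hp.two_le
  by_cases hpM : p ∣ M
  · have := h.bad1 p hp hpM
    linarith
  by_contra hcon
  rw [not_lt] at hcon
  -- `|b (p^(k+1))| ≥ p |b (p^k)|`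
  have key : ∀ k : ℕ, (p : ℝ) * |b (p ^ k)| ≤ |b (p ^ (k + 1))| := by
    intro k
    induction k with
    | zero =>
      rw [pow_zero, h.one, abs_one, mul_one, zero_add, pow_one]
      linarith
    | succ k ih =>
      have h1 := h.hecke hp hpM k
      have h2 : |b p| * |b (p ^ (k + 1))| ≤ |b (p ^ (k + 2))| + p * |b (p ^ k)| := by
        have h3 : b p * b (p ^ (k + 1)) = b (p ^ (k + 2)) + p * b (p ^ k) := by linarith
        rw [← abs_mul, h3]
        refine (abs_add_le _ _).trans ?_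
        rw [abs_mul, abs_of_pos (by linarith : (0 : ℝ) < p)]
      have h3 : (p + 1) * |b (p ^ (k + 1))| ≤ |b p| * |b (p ^ (k + 1))| :=
        mul_le_mul_of_nonneg_right hcon (abs_nonneg _)
      show (p : ℝ) * |b (p ^ (k + 1))| ≤ |b (p ^ (k + 2))|
      linarith
  have key2 : ∀ k : ℕ, (p : ℝ) ^ k ≤ |b (p ^ k)| := by
    intro k
    induction k with
    | zero => rw [pow_zero, pow_zero, h.one, abs_one]
    | succ k ih =>
      refine le_trans ?_ (key k)
      rw [pow_succ', ]
      exact mul_le_mul_of_nonneg_left ih (by linarith)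
  obtain ⟨C, δ, hC, hδ, hb⟩ := hpow
  -- contradiction for large `k`
  have h4 : ∀ k : ℕ, ((p : ℝ) ^ δ) ^ k ≤ C := by
    intro k
    have h5 := hb (p ^ k) (Nat.one_le_pow _ _ hp.pos)
    have h6 : ((p : ℝ) ^ k) ^ 2 ≤ (b (p ^ k)) ^ 2 := by
      rw [← sq_abs (b (p ^ k))]
      exact pow_le_pow_left₀ (by positivity) (key2 k) 2
    have h7 := h6.trans h5
    push_cast at h7
    have hpk : (0 : ℝ) < (p : ℝ) ^ k := by positivity
    have e1 : ((p : ℝ) ^ k) ^ (2 - δ) = ((p : ℝ) ^ k) ^ 2 / ((p : ℝ) ^ k) ^ δ := by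
      rw [Real.rpow_sub hpk]
      norm_num
    rw [e1] at h7
    have h8 : (0 : ℝ) < ((p : ℝ) ^ k) ^ δ := by positivity
    rw [mul_div_assoc', le_div_iff₀ h8] at h7
    have h9 : ((p : ℝ) ^ k) ^ δ ≤ C := by
      have h10 : (0 : ℝ) < ((p : ℝ) ^ k) ^ 2 := by positivity
      nlinarith
    have e2 : ((p : ℝ) ^ δ) ^ k = ((p : ℝ) ^ k) ^ δ := by
      rw [← Real.rpow_natCast ((p : ℝ) ^ δ), ← Real.rpow_mul (by linarith),
        ← Real.rpow_natCast (p : ℝ) k, ← Real.rpow_mul (by linarith), mul_comm]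
    rw [e2]
    exact h9
  have h5 : 1 < (p : ℝ) ^ δ := Real.one_lt_rpow (by linarith) hδ
  obtain ⟨k, hk⟩ := pow_unbounded_of_one_lt C h5
  linarith [h4 k]

/-- the twist of a newform by a discriminant -/
theorem HR.ldr (h : HR M b) (htriv : ∀ p : ℕ, p.Prime → |b p| < p + 1) {n : ℤ} (hn : Fd n) :
    LDr (fun k => b k * kr n k) where
  zero := by rw [h.zero, zero_mul]
  one := by
    rw [h.one, Nat.cast_one, kr_one hn]
    norm_num
  mul m k hmk := by
    rw [h.mul m k hmk]
    push_cast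
    rw [kr_mul hn]
    push_cast
    ring
  loc p hp := by
    have hp1 : (1 : ℝ) ≤ p := by exact_mod_cast hp.one_lt.le
    have hpow : ∀ k : ℕ, (kr n ((p ^ k : ℕ) : ℤ) : ℤ) = (kr n (p : ℤ)) ^ k := by
      intro k
      induction k with
      | zero => rw [pow_zero, Nat.cast_one, kr_one hn, pow_zero]
      | succ k ih =>
        rw [pow_succ, Nat.cast_mul, kr_mul hn, ih, pow_succ]
    have hkr : |((kr n (p : ℤ) : ℤ) : ℝ)| ≤ 1 := by
      by_cases hc : IsCoprime n (p : ℤ)
      · rcases kr_pm hn hc with h5 | h5 <;> rw [h5] <;> norm_num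
      · rw [kr_zero hn hc]; norm_num
    have hle : |b p * ((kr n (p : ℤ) : ℤ) : ℝ)| ≤ |b p| := by
      rw [abs_mul]
      exact mul_le_of_le_one_right (abs_nonneg _) hkr
    by_cases hpM : p ∣ M
    · right
      refine ⟨fun k => ?_, hle.trans (h.bad1 p hp hpM)⟩
      rw [hpow, hpow, h.badp hp hpM]
      push_cast
      ring
    · by_cases hc : IsCoprime n (p : ℤ)
      · left
        refine ⟨fun k => ?_, hle.trans (htriv p hp).le⟩
        have hsq : ((kr n (p : ℤ) : ℤ) : ℝ) ^ 2 = 1 := by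
          rcases kr_pm hn hc with h5 | h5 <;> rw [h5] <;> norm_num
        rw [hpow, hpow, hpow, h.hecke hp hpM]
        push_cast
        linear_combination ((kr n (p : ℤ) : ℤ) : ℝ) ^ k * (-(p : ℝ) * b (p ^ k)) * hsq
      · right
        have h0 : kr n (p : ℤ) = 0 := kr_zero hn hc
        refine ⟨fun k => ?_, ?_⟩
        · rw [hpow, h0]
          push_cast
          rw [zero_pow (Nat.succ_ne_zero k)]
          ring
        · rw [h0]; norm_num

end T8
end P004N
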