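import Vale.Agent.P004N.H3.New

/-!
# P004N, module T8: twists with a pure functional equation
-/

open Real MeasureTheory Set Filter
open scoped ENNReal Topology NumberTheorySymbols

namespace P004N
namespace T8

open Vale.Agent.P004H.H871 (kr Fd kr_odd kr_one_mod kr_four kr_eight kr_eight' kr_zero kr_pm kr_mul
  kr_one)

/-- the data of the pure functional equations (output of `StPure`) -/
structure PD (N : ℕ) (a : ℕ → ℤ) (M : ℕ) (b : ℕ → ℝ) (Q : ℕ) (eQ : ℝ) : Prop where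
  hr : HR M b
  dvd : ∀ p : ℕ, p.Prime → p ∣ M → p ∣ N
  eq : ∀ n : ℕ, n.Coprime N → b n = a n
  zero : ∀ p : ℕ, p.Prime → p ^ 2 ∣ M → b p = 0
  pos : 0 < Q
  sgn : eQ = 1 ∨ eQ = -1
  iff : ∀ p : ℕ, p.Prime → (p ∣ Q ↔ p ^ 2 ∣ M)
  fe : ∀ D : ℤ, Fd D → (∀ p : ℕ, p.Prime → p ∣ M → ¬ p ^ 2 ∣ M → (p : ℤ) ∣ D) →
    IsCoprime (Q : ℤ) D →
      FEr (fun k => b k * kr D k) (Q * (D : ℝ) ^ 2 / 4) (-(eQ * (kr D (-(Q : ℤ)) : ℤ)))

/-- the choice of the twist -/
lemma exists_d0 {B M : ℕ} (hB : B ≠ 0) :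
    ∃ d : ℤ, Squarefree d ∧ d ∣ B ∧ (∀ p : ℕ, p.Prime → p ∣ B → ¬ p ^ 2 ∣ M → (p : ℤ) ∣ Dm d) ∧
      (∀ p : ℕ, p.Prime → p ^ 2 ∣ M → ¬ (p : ℤ) ∣ Dm d) := by
  classical
  set S : Finset ℕ := B.primeFactors.filter (fun p => p ≠ 2 ∧ ¬ p ^ 2 ∣ M) with hS
  set D : ℕ := ∏ p ∈ S, p with hD
  have hSp : ∀ p ∈ S, p.Prime := fun p hp =>
    Nat.prime_of_mem_primeFactors (Finset.mem_filter.1 hp).1
  have hDsq : Squarefree D := by
    rw [hD]
    apply Finset.squarefree_prod_of_pairwise_isCoprime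
    · intro p hp q hq hpq
      exact Nat.coprime_iff_isRelPrime.1 ((Nat.coprime_primes (hSp p hp) (hSp q hq)).2 hpq)
    · intro p hp
      exact (hSp p hp).prime.squarefree
  have hDB : D ∣ B := by
    have h1 : D ∣ ∏ p ∈ B.primeFactors, p :=
      Finset.prod_dvd_prod_of_subset _ _ _ (Finset.filter_subset _ _)
    exact h1.trans (Nat.prod_primeFactors_dvd B)
  have hpD : ∀ p : ℕ, p.Prime → (p ∣ D ↔ p ∈ S) := by
    intro p hp
    constructor
    · intro h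
      obtain ⟨q, hq, hpq⟩ := (Prime.dvd_finsetProd_iff hp.prime _).1 h
      rw [(Nat.prime_dvd_prime_iff_eq hp (hSp q hq)).1 hpq]
      exact hq
    · exact fun h => Finset.dvd_prod_of_mem _ h
  have hodd : D % 2 = 1 := by
    by_contra h
    have h2 : 2 ∣ D := by omega
    exact (Finset.mem_filter.1 ((hpD 2 Nat.prime_two).1 h2)).2.1 rfl
  obtain ⟨d, hd, hd4⟩ : ∃ d : ℤ, (d = D ∨ d = -D) ∧ ((¬ 4 ∣ M → d % 4 = 3) ∧
      (4 ∣ M → d % 4 = 1)) := by
    by_cases h4 : 4 ∣ M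
    · rcases (by omega : D % 4 = 1 ∨ D % 4 = 3) with h | h
      · exact ⟨D, Or.inl rfl, fun h5 => absurd h4 h5, fun _ => by omega⟩
      · exact ⟨-D, Or.inr rfl, fun h5 => absurd h4 h5, fun _ => by omega⟩
    · rcases (by omega : D % 4 = 1 ∨ D % 4 = 3) with h | h
      · exact ⟨-D, Or.inr rfl, fun _ => by omega, fun h5 => absurd h5 h4⟩
      · exact ⟨D, Or.inl rfl, fun _ => by omega, fun h5 => absurd h5 h4⟩
  have hnat : d.natAbs = D := by
    rcases hd with h | h <;> rw [h] <;> simp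
  have hdp : ∀ p : ℕ, ((p : ℤ) ∣ d ↔ p ∣ D) := by
    intro p
    rw [Int.natCast_dvd, hnat]
  refine ⟨d, ?_, ?_, ?_, ?_⟩
  · rw [← Int.squarefree_natAbs, hnat]; exact hDsq
  · rw [← Int.natAbs_dvd, hnat]; exact_mod_cast hDB
  · intro p hp hpB hpM
    by_cases hp2 : p = 2
    · subst hp2
      have h4 : ¬ 4 ∣ M := by simpa using hpM
      unfold Dm
      rw [if_neg (by have := hd4.1 h4; omega)]
      exact ⟨2 * d, by push_cast; ring⟩
    · have h1 : (p : ℤ) ∣ d := (hdp p).2 ((hpD p hp).2 (Finset.mem_filter.2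
        ⟨Nat.mem_primeFactors.2 ⟨hp, hpB, hB⟩, hp2, hpM⟩))
      unfold Dm
      split_ifs
      · exact h1
      · exact h1.mul_left 4
  · intro p hp hpM h1
    by_cases hp2 : p = 2
    · subst hp2
      have h4 : 4 ∣ M := by simpa using hpM
      unfold Dm at h1
      rw [if_pos (hd4.2 h4)] at h1
      have := hd4.2 h4
      omega
    · have h3 : (p : ℤ) ∣ 4 * d := by
        unfold Dm at h1
        split_ifs at h1
        · exact h1.mul_left 4
        · exact h1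
      rcases (Nat.prime_iff_prime_int.1 hp).dvd_or_dvd h3 with h4 | h4
      · have h5 : p ∣ 4 := by exact_mod_cast h4
        have h6 : p ∣ 2 := hp.dvd_of_dvd_pow (n := 2) (by norm_num; exact h5)
        exact hp2 ((Nat.prime_dvd_prime_iff_eq hp Nat.prime_two).1 h6)
      · exact (Finset.mem_filter.1 ((hpD p hp).1 ((hdp p).1 h4))).2.2 hpM

/-- **the twists with a pure functional equation** -/
theorem exists_pure {N : ℕ} {a : ℕ → ℤ} {M : ℕ} {b : ℕ → ℝ} {Q : ℕ} {eQ : ℝ}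
    (h : PD N a M b Q eQ) {B : ℕ} (hB : B ≠ 0) (h2 : 2 ∣ B) (hN : N ∣ B) {η : ℝ}
    (hη : ∀ p : ℕ, p.Prime → |b p| ≤ p + 1 - η) (htriv : ∀ p : ℕ, p.Prime → |b p| < p + 1) :
    ∃ (d : ℤ) (A : ℕ → ℝ) (M' : ℕ) (ε' : ℝ), TwP a B η (RkB a B) d A M' ε' := by
  obtain ⟨d, hds, hdB, hd1, hd2⟩ := exists_d0 (B := B) (M := M) hB
  have hF := fd_Dm hds
  have hD0 : Dm d ≠ 0 := hF.ne
  have hQp : ∀ p : ℕ, p.Prime → p ∣ Q → p ∣ B := fun p hp hpQ =>
    (h.dvd p hp ((dvd_pow_self p two_ne_zero).trans ((h.iff p hp).1 hpQ))).trans hN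
  have hcopQ : IsCoprime (Q : ℤ) (Dm d) := by
    rw [Int.isCoprime_iff_gcd_eq_one, Int.gcd_eq_natAbs, Int.natAbs_natCast]
    change Nat.Coprime _ _
    rw [Nat.coprime_comm]
    by_contra h1
    obtain ⟨p, hp, h3, h4⟩ := Nat.Prime.not_coprime_iff_dvd.1 h1
    exact hd2 p hp ((h.iff p hp).1 h4) (Int.natCast_dvd.2 h3)
  have hkrQ := kr_pm (n := -(Q : ℤ)) hF hcopQ.symm.neg_right
  -- the twist of level `n`
  have htw : ∀ n : ℤ, Adm B n → Fd (Dm d * n) ∧ IsCoprime n (Dm d) ∧ IsCoprime n (Q : ℤ) ∧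
      twr (fun k => b k * kr (Dm d) k) n = fun k => b k * kr (Dm d * n) k := by
    intro n hn
    have hn0 : n ≠ 0 := hn.1.ne_zero
    have hcop : IsCoprime n (B : ℤ) := by
      rw [Int.isCoprime_iff_gcd_eq_one, Int.gcd_eq_natAbs, Int.natAbs_natCast]
      exact hn.2.2
    have hdn : Squarefree (d * n) := by
      rw [squarefree_mul_iff]
      exact ⟨(hcop.of_isCoprime_of_dvd_right hdB).symm.isRelPrime, hds, hn.1⟩
    have e : Dm (d * n) = Dm d * n := by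
      unfold Dm
      have : (d * n) % 4 = d % 4 := by
        rw [Int.mul_emod, hn.2.1, mul_one, Int.emod_emod_of_dvd _ (dvd_refl 4)]
      rw [this]
      split_ifs <;> ring
    refine ⟨e ▸ fd_Dm hdn, ?_, ?_, ?_⟩
    · rw [Int.isCoprime_iff_gcd_eq_one, Int.gcd_eq_natAbs]
      exact cop_of_primes (fun p hp h1 => dm_dvd hp h2 hdB h1) hn.2.2
    · rw [Int.isCoprime_iff_gcd_eq_one, Int.gcd_eq_natAbs, Int.natAbs_natCast]
      exact cop_of_primes hQp hn.2.2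
    · funext k
      unfold twr
      rw [kr_disc hF hn.2.1 hn0]
      push_cast
      ring
  have hvan : ∀ k : ℕ, ¬ k.Coprime B → b k * kr (Dm d) k = 0 := by
    intro k hk
    obtain ⟨p, hp, h3, h4⟩ := Nat.Prime.not_coprime_iff_dvd.1 hk
    by_cases hpM : p ^ 2 ∣ M
    · obtain ⟨j, rfl⟩ := h3
      rw [h.hr.bad p hp ((dvd_pow_self p two_ne_zero).trans hpM), h.zero p hp hpM, zero_mul,
        zero_mul]
    · have h5 : ¬ IsCoprime (Dm d) (k : ℤ) := by
        intro h6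
        have h7 := h6.isUnit_of_dvd' (hd1 p hp h4 hpM) (by exact_mod_cast h3)
        exact (Nat.prime_iff_prime_int.1 hp).not_isUnit h7
      rw [kr_zero hF h5, Int.cast_zero, mul_zero]
  have hco : ∀ k : ℕ, k.Coprime B → b k * kr (Dm d) k = a k * kr (Dm d) k := by
    intro k hk
    rw [h.eq k (hk.coprime_dvd_right hN)]
  refine ⟨d, fun k => b k * kr (Dm d) k, Q * (Dm d).natAbs ^ 2, eQ * (kr (Dm d) (-(Q : ℤ)) : ℤ),
    ⟨⟨?_, ?_, hco, ?_, ?_, ?_, ?_⟩, hds, hdB, hvan⟩⟩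
  · have := Int.natAbs_pos.2 hD0
    have := h.pos
    positivity
  · rcases h.sgn with h1 | h1 <;> rcases hkrQ with h3 | h3 <;> rw [h1, h3] <;> norm_num
  · intro n hn
    obtain ⟨h1, -, -, h4⟩ := htw n hn
    rw [h4]
    exact h.hr.ldr htriv h1
  · intro p hp
    refine le_trans ?_ (hη p hp)
    rw [abs_mul]
    exact mul_le_of_le_one_right (abs_nonneg _) (kr_abs_le hF _)
  · intro n hn
    obtain ⟨h1, h3, h4, h5⟩ := htw n hn
    have hn0 : n ≠ 0 := hn.1.ne_zero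
    have h6 := h.fe (Dm d * n) h1 (fun p hp hpM hpM2 =>
      (hd1 p hp ((h.dvd p hp hpM).trans hN) hpM2).mul_right n) (hcopQ.mul_right h4.symm)
    rw [h5]
    have e1 : ((Q * (Dm d).natAbs ^ 2 : ℕ) : ℝ) * (n : ℝ) ^ 2 / 4 =
        Q * ((Dm d * n : ℤ) : ℝ) ^ 2 / 4 := by
      push_cast
      rw [Nat.cast_natAbs, Int.cast_abs, sq_abs]
      ring
    have e2 : kr n (-((Q * (Dm d).natAbs ^ 2 : ℕ) : ℤ)) = kr n (-(Q : ℤ)) := by
      have e3 : (-((Q * (Dm d).natAbs ^ 2 : ℕ) : ℤ)) = -(Q : ℤ) * (Dm d * Dm d) := by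
        push_cast
        rw [sq_abs]
        ring
      rw [e3, kr_mul hn.fd, kr_mul hn.fd]
      rcases kr_pm hn.fd h3 with h7 | h7 <;> rw [h7] <;> ring
    have e4 : kr (Dm d * n) (-(Q : ℤ)) = kr (Dm d) (-(Q : ℤ)) * kr n (-(Q : ℤ)) :=
      kr_disc hF hn.2.1 hn0 _
    rw [e1, e2]
    rw [e4] at h6
    push_cast at h6 ⊢
    rw [mul_assoc]
    exact h6
  · intro n hn L hL
    have e : twr (fun k => b k * kr (Dm d) k) n = fun k => ((cf a B (d * n) k : ℤ) : ℝ) := by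
      funext k
      unfold cf
      split_ifs with hk
      · have ho := (cop_ne h2 hk).1
        unfold twr
        simp only
        rw [hco k hk, kr_Dm hds ho, kr_four_one hn.1 hn.2.1 ho, jacobiSym.mul_left]
        push_cast
        ring
      · unfold twr
        simp only
        rw [hvan k hk]
        simp
    rw [e] at hL
    exact ordL_eq hL

end T8
end P004N
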