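import Vale.Agent.P004N.H3.Gen
import Vale.Agent.P004N.H3.Base

/-!
# P004N, module T8: the data of the twists of an eigenform; the coefficient system
-/

open Real MeasureTheory Set Filter
open scoped ENNReal Topology NumberTheorySymbols

namespace P004N
namespace T8

open P004 (IsFund Fam)
open P004.QN (sfk TwSign)
open Vale.Agent.P004H.H871 (kr Fd kr_odd kr_one_mod kr_zero kr_pm kr_mul kr_one)

/-- twisted coefficients -/
noncomputable def twr (A : ℕ → ℝ) (n : ℤ) (k : ℕ) : ℝ := A k * kr n k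

/-- the admissible twisting parameters prime to `B` -/
def Adm (B : ℕ) (n : ℤ) : Prop := Squarefree n ∧ n % 4 = 1 ∧ n.natAbs.Coprime B

/-- the data of the twists by `d n`, `n ≡ 1 mod 4` prime to `B`, for fixed `d ∣ B`; `Rk s` is the
analytic rank of the twist by `s` -/
structure TwD (a : ℕ → ℤ) (B : ℕ) (η : ℝ) (Rk : ℤ → ℕ) (d : ℤ) (A : ℕ → ℝ) (M : ℕ) (ε : ℝ) :
    Prop where
  mpos : 0 < M
  eps : ε = 1 ∨ ε = -1
  co : ∀ k : ℕ, k.Coprime B → A k = a k * kr (Dm d) k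
  ld : ∀ n : ℤ, Adm B n → LDr (twr A n)
  et : ∀ p : ℕ, p.Prime → |A p| ≤ p + 1 - η
  fe : ∀ n : ℤ, Adm B n → FEr (twr A n) (M * (n : ℝ) ^ 2 / 4) (-(ε * (kr n (-(M : ℤ)) : ℤ)))
  rk : ∀ n : ℤ, Adm B n → ∀ L : ℂ → ℂ, IsLr (twr A n) L → Rk (d * n) = analyticOrderNatAt L 1

/-- the data of all twists -/
structure TwS (a : ℕ → ℤ) (B : ℕ) (η : ℝ) (Rk : ℤ → ℕ) : Prop where
  ne : B ≠ 0
  two : 2 ∣ B
  eta : 0 < η
  one : a 1 = 1
  mul : ∀ m n : ℕ, m.Coprime B → n.Coprime B → m.Coprime n → a (m * n) = a m * a n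
  hecke : ∀ p k : ℕ, p.Prime → ¬ p ∣ B → a (p ^ (k + 2)) = a p * a (p ^ (k + 1)) - p * a (p ^ k)
  all : ∀ d : ℤ, Squarefree d → d ∣ B → ∃ (A : ℕ → ℝ) (M : ℕ) (ε : ℝ), TwD a B η Rk d A M ε

/-- data with pure functional equations -/
structure TwP (a : ℕ → ℤ) (B : ℕ) (η : ℝ) (Rk : ℤ → ℕ) (d : ℤ) (A : ℕ → ℝ) (M : ℕ) (ε : ℝ) :
    Prop extends TwD a B η Rk d A M ε where
  sqf : Squarefree d
  dvd : d ∣ B
  van : ∀ k : ℕ, ¬ k.Coprime B → A k = 0

/-! ### Kronecker symbols at primes -/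

lemma jac_zero {D : ℤ} {p : ℕ} (hp : p.Prime) (h : (p : ℤ) ∣ D) : jacobiSym D p = 0 := by
  rw [jacobiSym.eq_zero_iff]
  refine ⟨hp.ne_zero, ?_⟩
  intro h1
  have h2 : (p : ℤ) ∣ (Int.gcd D p : ℕ) := Int.dvd_coe_gcd h dvd_rfl
  rw [h1] at h2
  have h3 : p ∣ 1 := by exact_mod_cast h2
  exact hp.one_lt.ne' (Nat.dvd_one.1 h3)

lemma jac_sq {D : ℤ} {k : ℕ} (h : D.natAbs.Coprime k) : jacobiSym D k ^ 2 = 1 := by
  apply jacobiSym.sq_one
  exact h

/-! ### the decomposition of the squarefree integers -/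

lemma cop_ne {B k : ℕ} (h2 : 2 ∣ B) (hk : k.Coprime B) : k % 2 = 1 ∧ k ≠ 0 := by
  have h1 : k.Coprime 2 := hk.coprime_dvd_right h2
  rw [Nat.coprime_two_right] at h1
  have h3 := Nat.odd_iff.1 h1
  exact ⟨h3, by rintro rfl; omega⟩

lemma decomp {B : ℕ} (h2 : 2 ∣ B) {s : ℤ} (hs : Squarefree s) :
    ∃ d n : ℤ, s = d * n ∧ Squarefree d ∧ d ∣ B ∧ Adm B n := by
  obtain ⟨n', hn'⟩ : ((Nat.gcd s.natAbs B : ℕ) : ℤ) ∣ s :=
    Int.natCast_dvd.2 (Nat.gcd_dvd_left _ _)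
  set g : ℤ := ((Nat.gcd s.natAbs B : ℕ) : ℤ) with hg
  have hgB : g ∣ (B : ℤ) := by
    rw [hg]
    exact_mod_cast Nat.gcd_dvd_right s.natAbs B
  have hsq : Squarefree g := hs.squarefree_of_dvd ⟨n', hn'⟩
  have hsn : Squarefree n' := hs.squarefree_of_dvd ⟨g, by rw [hn']; ring⟩
  have hcop : n'.natAbs.Coprime B := by
    rw [Nat.coprime_iff_gcd_eq_one]
    by_contra hne
    obtain ⟨p, hp, hpd⟩ := Nat.exists_prime_and_dvd hne
    have h3 : p ∣ n'.natAbs := hpd.trans (Nat.gcd_dvd_left _ _)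
    have h4 : p ∣ B := hpd.trans (Nat.gcd_dvd_right _ _)
    have h5 : (p : ℤ) ∣ n' := Int.natCast_dvd.2 h3
    have h6 : (p : ℤ) ∣ s := by rw [hn']; exact h5.mul_left g
    have h7 : p ∣ Nat.gcd s.natAbs B := Nat.dvd_gcd (Int.natCast_dvd.1 h6) h4
    have h8 : (p : ℤ) ∣ g := by rw [hg]; exact_mod_cast h7
    have h9 : (p : ℤ) * p ∣ s := by rw [hn']; exact mul_dvd_mul h8 h5
    have h10 := hs _ h9
    rw [Int.isUnit_iff] at h10
    have := hp.two_le
    omega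
  have hodd : n' % 2 = 1 := by
    have := (cop_ne h2 hcop).1
    omega
  by_cases h4 : n' % 4 = 1
  · exact ⟨g, n', hn', hsq, hgB, hsn, h4, hcop⟩
  · refine ⟨-g, -n', by rw [hn']; ring, ?_, by rwa [neg_dvd], ?_, by omega, by simpa using hcop⟩
    · rw [← Int.squarefree_natAbs, Int.natAbs_neg, Int.squarefree_natAbs]; exact hsq
    · rw [← Int.squarefree_natAbs, Int.natAbs_neg, Int.squarefree_natAbs]; exact hsn

/-! ### the coefficients -/

section

variable {a : ℕ → ℤ} {B : ℕ} {η : ℝ} {Rk : ℤ → ℕ} {d : ℤ} {A : ℕ → ℝ} {M : ℕ} {ε : ℝ}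

/-- the integral coefficients of the twist by `d` away from `B` -/
noncomputable def cf (a : ℕ → ℤ) (B : ℕ) (d : ℤ) (n : ℕ) : ℤ :=
  if n.Coprime B then a n * jacobiSym d n else 0

lemma cop_jac {B : ℕ} {d : ℤ} (hd : d ∣ B) {k : ℕ} (hk : k.Coprime B) : d.natAbs.Coprime k := by
  have : d.natAbs ∣ B := Int.natAbs_dvd_natAbs.2 hd
  exact (hk.coprime_dvd_right this).symm

lemma TwP.cf_eq (h : TwS a B η Rk) (hp : TwP a B η Rk d A M ε) (n : ℕ) : A n = cf a B d n := by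
  unfold cf
  split_ifs with h1
  · rw [hp.co n h1, kr_Dm hp.sqf (cop_ne h.two h1).1]
    push_cast
    rfl
  · rw [hp.van n h1, Int.cast_zero]

lemma cf_one (h : TwS a B η Rk) (d : ℤ) : cf a B d 1 = 1 := by
  unfold cf
  rw [if_pos (Nat.coprime_one_left _), h.one, jacobiSym.one_right, mul_one]

lemma cf_bad {n : ℕ} (hn : ¬ n.Coprime B) : cf a B d n = 0 := if_neg hn

lemma cf_mul (h : TwS a B η Rk) (d : ℤ) (m n : ℕ) (hmn : m.Coprime n) :
    cf a B d (m * n) = cf a B d m * cf a B d n := by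
  unfold cf
  by_cases h1 : m.Coprime B
  · by_cases h2 : n.Coprime B
    · have hm : NeZero m := ⟨(cop_ne h.two h1).2⟩
      have hn : NeZero n := ⟨(cop_ne h.two h2).2⟩
      rw [if_pos h1, if_pos h2, if_pos (Nat.Coprime.mul_left h1 h2), h.mul m n h1 h2 hmn,
        jacobiSym.mul_right]
      ring
    · rw [if_neg h2, if_neg (fun h3 => h2 ((Nat.coprime_mul_iff_left.1 h3).2)), mul_zero]
  · rw [if_neg h1, if_neg (fun h3 => h1 ((Nat.coprime_mul_iff_left.1 h3).1)), zero_mul]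

lemma cf_hecke (h : TwS a B η Rk) (hd : d ∣ B) (p k : ℕ) (hpp : p.Prime) (hb : ¬ p ∣ B) :
    cf a B d (p ^ (k + 2)) = cf a B d p * cf a B d (p ^ (k + 1)) - p * cf a B d (p ^ k) := by
  have hcp : p.Coprime B := (Nat.Prime.coprime_iff_not_dvd hpp).2 hb
  have hc : ∀ j : ℕ, (p ^ j).Coprime B := fun j => hcp.pow_left j
  have hsq := jac_sq (cop_jac hd hcp)
  unfold cf
  rw [if_pos (hc _), if_pos (hc _), if_pos (hc _), if_pos hcp, h.hecke p k hpp hb,
    jacobiSym.pow_right, jacobiSym.pow_right, jacobiSym.pow_right]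
  have e : jacobiSym d p ^ (k + 2) = jacobiSym d p ^ k := by rw [pow_add, hsq, mul_one]
  have e' : jacobiSym d p * jacobiSym d p ^ (k + 1) = jacobiSym d p ^ k := by
    rw [← pow_succ']
    exact e
  calc (a p * a (p ^ (k + 1)) - p * a (p ^ k)) * jacobiSym d p ^ (k + 2)
      = a p * a (p ^ (k + 1)) * jacobiSym d p ^ k - p * (a (p ^ k) * jacobiSym d p ^ k) := by
        rw [e]; ring
    _ = _ := by rw [← e']; ring

lemma cf_sq {n : ℕ} (hd : d ∣ B) (hn : n.Coprime B) : (cf a B d n) ^ 2 = (a n) ^ 2 := by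
  unfold cf
  rw [if_pos hn, mul_pow, jac_sq (cop_jac hd hn), mul_one]

/-! ### the squarefree integers `sqp (d m)` -/

/-- the decomposition of `sqp (d m)` -/
lemma decomp_tw (h2 : 2 ∣ B) (hB : B ≠ 0) (hds : Squarefree d) (hd : d ∣ B) {m : ℤ}
    (hm : Squarefree m) :
    ∃ d' n : ℤ, sqp (d * m) = d' * n ∧ Squarefree d' ∧ d' ∣ B ∧ Adm B n ∧
      (∀ k : ℕ, k.Coprime B → jacobiSym d' k * jacobiSym n k = jacobiSym d k * jacobiSym m k) ∧
      |m| ≤ B * B * |n| ∧ |n| ≤ B * |m| := by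
  have hdm : d * m ≠ 0 := mul_ne_zero hds.ne_zero hm.ne_zero
  obtain ⟨hs, t, ht, ht0⟩ := sqp_spec hdm
  obtain ⟨d', n, hdn, hd's, hd'B, hn⟩ := decomp h2 hs
  have htd : t ∣ d := by
    apply dvd_of_sq_dvd ht0 hm
    exact ⟨sqp (d * m), by rw [mul_comm (t ^ 2)]; exact ht⟩
  have hB0 : (0 : ℤ) < B := by exact_mod_cast Nat.pos_of_ne_zero hB
  have hdB : |d| ≤ B := Int.le_of_dvd hB0 ((abs_dvd _ _).2 hd)
  have hd'B' : |d'| ≤ B := Int.le_of_dvd hB0 ((abs_dvd _ _).2 hd'B)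
  have htB : |t| ≤ |d| := Int.le_of_dvd (abs_pos.2 hds.ne_zero) ((abs_dvd_abs t d).2 htd)
  have ht1 : 1 ≤ |t| := Int.one_le_abs ht0
  have hd1 : 1 ≤ |d| := Int.one_le_abs hds.ne_zero
  have hd'1 : 1 ≤ |d'| := Int.one_le_abs hd's.ne_zero
  have hn0 : 0 ≤ |n| := abs_nonneg n
  have hm0 : 0 ≤ |m| := abs_nonneg m
  have habs : |d| * |m| = |d'| * |n| * (|t| * |t|) := by
    have h3 := congrArg abs ht
    rw [hdn, abs_mul, abs_mul, abs_mul, abs_pow, pow_two] at h3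
    exact h3
  refine ⟨d', n, hdn, hd's, hd'B, hn, fun k hk => ?_, ?_, ?_⟩
  · have hk0 := cop_ne h2 hk
    rw [← jacobiSym.mul_left, ← jacobiSym.mul_left, ht, hdn, jacobiSym.mul_left _ (t ^ 2),
      jacobiSym.pow_left, jac_sq, mul_one]
    have h5 : t.natAbs ∣ d.natAbs := Int.natAbs_dvd_natAbs.2 htd
    exact (cop_jac hd hk).coprime_dvd_left h5
  · -- `|d| |m| ≤ B |n| |d|²`
    have h3 : |d| * |m| ≤ |d| * (B * B * |n|) := by
      rw [habs]
      calc |d'| * |n| * (|t| * |t|) ≤ B * |n| * (|d| * B) := by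
            have : |t| * |t| ≤ |d| * B := mul_le_mul htB (htB.trans hdB) (abs_nonneg _) (abs_nonneg _)
            have h4 : |d'| * |n| ≤ B * |n| := mul_le_mul_of_nonneg_right hd'B' hn0
            exact mul_le_mul h4 this (by positivity) (by positivity)
        _ = _ := by ring
    exact le_of_mul_le_mul_left h3 (by linarith)
  · calc |n| ≤ |d'| * |n| * (|t| * |t|) := by
          have h3 : |n| * 1 ≤ |n| * (|d'| * (|t| * |t|)) := by
            refine mul_le_mul_of_nonneg_left ?_ hn0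
            nlinarith [mul_le_mul hd'1 (mul_le_mul ht1 ht1 zero_le_one (abs_nonneg t))
              (by norm_num) (abs_nonneg d')]
          calc |n| = |n| * 1 := (mul_one _).symm
            _ ≤ _ := h3
            _ = _ := by ring
      _ = |d| * |m| := habs.symm
      _ ≤ B * |m| := mul_le_mul_of_nonneg_right hdB hm0

end

end T8
end P004N
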